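import Mathlib
import Vale.Agent.P204.Torus.Jet
import Vale.Agent.P204.Torus.Defs

/-!
# P204: the chart-independent form of the test-potential estimates

At a pair of points `(x, y)`: `q` is the squared distance, `a` its differential and `h` its
Hessian on `Pt × Pt`, `jx`, `jdx` are the almost complex structure and its differential at `x`,
and `K` is the jet at `y`, all in coordinates with displacement `w` and distance `r`.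
-/

open Matrix

namespace Vale.Agent.P204.Core

open Vale.Agent.P204.Torus

/-- Displacement and midpoint coordinates of a vector at the pair of points. -/
noncomputable def conv (V : Pt × Pt) : Pt × Pt := (V.1 - V.2, (2 : ℝ)⁻¹ • (V.1 + V.2))

/-- Second order data of a squared distance and of the structures at a pair of points. -/
structure PairData where
  K : Jet
  jx : M4
  jdx : Pt →ₗ[ℝ] M4
  q : ℝ
  s : ℝ
  a : Pt × Pt →ₗ[ℝ] ℝ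
  h : Pt × Pt →ₗ[ℝ] Pt × Pt →ₗ[ℝ] ℝ

variable (P : PairData)

/-- The product almost complex structure. -/
def PairData.jt (V : Pt × Pt) : Pt × Pt := (P.jx *ᵥ V.1, P.K.j *ᵥ V.2)

/-- The differential of `V ↦ a (jt V)` in the direction `U`. -/
def PairData.dBeta (U V : Pt × Pt) : ℝ :=
  P.h U (P.jt V) + P.a (P.jdx U.1 *ᵥ V.1, P.K.jd U.2 *ᵥ V.2)

/-- The curl of `a ∘ jt`. -/
def PairData.curl (U V : Pt × Pt) : ℝ := P.dBeta U V - P.dBeta V U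

/-- `dJdu` for `u = log (q + s²) / 2`. -/
noncomputable def PairData.dd (U V : Pt × Pt) : ℝ :=
  -P.curl U V / (2 * (P.q + P.s ^ 2))
    + (P.a U * P.a (P.jt V) - P.a V * P.a (P.jt U)) / (2 * (P.q + P.s ^ 2) ^ 2)

/-- `du ∧ dJdu` for the same `u`. -/
noncomputable def PairData.dudd (U V W : Pt × Pt) : ℝ :=
  -(P.a U * P.curl V W + P.a V * P.curl W U + P.a W * P.curl U V)
    / (4 * (P.q + P.s ^ 2) ^ 2)

/-- The expansions assumed of a squared distance with midpoint metric. -/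
structure PairData.Expansion (w : Pt) (r c C : ℝ) : Prop where
  rnonneg : 0 ≤ r
  rle : r ≤ C
  wle : ‖w‖ ≤ C * r
  qlow : c * (r ^ 2 + P.s ^ 2) ≤ P.q + P.s ^ 2
  qhigh : P.q ≤ C * r ^ 2
  qw : |P.q - ev P.K.g w w| ≤ C * r ^ 3
  aexp : ∀ V, |P.a V - (d11 P.K w (conv V) + d12 P.K w (conv V))| ≤ C * r ^ 3 * ‖V‖
  hexp : ∀ U V,
    |P.h U V - (d20 P.K (conv U) (conv V) + d21 P.K w (conv U) (conv V))| ≤ C * r ^ 2 * ‖U‖ * ‖V‖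
  jexp : ∀ v, ‖P.jx *ᵥ v - P.K.j *ᵥ v - P.K.jd w *ᵥ v‖ ≤ C * r ^ 2 * ‖v‖
  jdexp : ∀ z v, ‖P.jdx z *ᵥ v - P.K.jd z *ᵥ v‖ ≤ C * r * ‖z‖ * ‖v‖
  jbd : ∀ v, ‖P.K.j *ᵥ v‖ ≤ C * ‖v‖
  jdbd : ∀ z v, ‖P.K.jd z *ᵥ v‖ ≤ C * ‖z‖ * ‖v‖
  glow : ∀ v, c * ‖v‖ ^ 2 ≤ ev P.K.g v v
  gbd : ∀ u v, |ev P.K.g u v| ≤ C * ‖u‖ * ‖v‖
  gdbd : ∀ z u v, |ev (P.K.gd z) u v| ≤ C * ‖z‖ * ‖u‖ * ‖v‖

/-- Squared distance of `v` from the line of `l`, times the squared length of `l`. -/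
def offK (K : Jet) (l v : Pt) : ℝ :=
  ev K.g v v * ev K.g l l - ev K.g v l ^ 2 - ev K.g v (K.j *ᵥ l) ^ 2

/-- All pointwise estimates, with constants depending only on `c` and `C`. -/
def TestCoreStmt : Prop :=
  ∀ c C : ℝ, 0 < c → ∃ B : ℝ, ∀ (P : PairData) (w : Pt) (r : ℝ), P.s ≠ 0 ∨ 0 < r →
    P.Expansion w r c C →
    (∀ V, |P.a V| ≤ B * r * ‖V‖) ∧
    (∀ U V, |P.dd U V| ≤ B * ‖U‖ * ‖V‖ / Real.sqrt (r ^ 2 + P.s ^ 2) ^ 2) ∧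
    (∀ U V W, |P.dudd U V W| ≤ B * ‖U‖ * ‖V‖ * ‖W‖ / Real.sqrt (r ^ 2 + P.s ^ 2) ^ 3) ∧
    (∀ u v, |P.dd (0, P.K.j *ᵥ u) (0, P.K.j *ᵥ v) - P.dd (0, u) (0, v)|
      ≤ B * ‖u‖ * ‖v‖ / Real.sqrt (r ^ 2 + P.s ^ 2)) ∧
    (∀ l, ‖l‖ ≤ 1 →
      |P.dd (0, l) (0, P.K.j *ᵥ l) - 2 * (offK P.K l w + P.s ^ 2 * ev P.K.g l l)
        / (P.q + P.s ^ 2) ^ 2| ≤ B / Real.sqrt (r ^ 2 + P.s ^ 2)) ∧
    (∀ l v, c ≤ ‖l‖ → ‖l‖ ≤ 1 → ‖v‖ ≤ 1 →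
      |P.dudd (v, 0) (0, l) (0, P.K.j *ᵥ l)| ≤
        B * (Real.sqrt (offK P.K l w) * Real.sqrt (offK P.K l v)
              / Real.sqrt (r ^ 2 + P.s ^ 2) ^ 4
            + Real.sqrt (offK P.K l w) / Real.sqrt (r ^ 2 + P.s ^ 2) ^ 3
            + Real.sqrt (offK P.K l v) / Real.sqrt (r ^ 2 + P.s ^ 2) ^ 2
            + 1 / Real.sqrt (r ^ 2 + P.s ^ 2)))

end Vale.Agent.P204.Core
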