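import Mathlib
import Vale.Agent.P204.Core.TestStmt

/-!
# P204 core: the data of a smooth squared distance at a pair of points
-/

open Matrix

namespace Vale.Agent.P204.Core

open Vale.Agent.P204.Torus

/-- The differential of a matrix field, entry by entry. -/
noncomputable def derivMat (J : Pt → M4) (p : Pt) : Pt →ₗ[ℝ] M4 where
  toFun v := Matrix.of fun i k => fderiv ℝ (fun q => J q i k) p v
  map_add' u v := by ext i k; simp
  map_smul' t v := by ext i k; simp

/-- The Hessian of a function as a bilinear map. -/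
noncomputable def hessLin (Q : Pt × Pt → ℝ) (z : Pt × Pt) :
    Pt × Pt →ₗ[ℝ] Pt × Pt →ₗ[ℝ] ℝ :=
  LinearMap.mk₂ ℝ (fun U V => fderiv ℝ (fderiv ℝ Q) z U V) (fun U U' V => by simp)
    (fun t U V => by simp) (fun U V V' => by simp) (fun t U V => by simp)

/-- The second order data of `Q` and of the structure `J` of the first factor at `z`, with the jet
`K` of the second factor. -/
noncomputable def pairOf (K : Jet) (J : Pt → M4) (Q : Pt × Pt → ℝ) (s : ℝ) (z : Pt × Pt) :
    PairData where
  K := K
  jx := J z.1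
  jdx := derivMat J z.1
  q := Q z
  s := s
  a := (fderiv ℝ Q z).toLinearMap
  h := hessLin Q z

theorem pairOf_a (K : Jet) (J : Pt → M4) (Q : Pt × Pt → ℝ) (s : ℝ) (z V : Pt × Pt) :
    (pairOf K J Q s z).a V = fderiv ℝ Q z V := rfl

theorem pairOf_h (K : Jet) (J : Pt → M4) (Q : Pt × Pt → ℝ) (s : ℝ) (z U V : Pt × Pt) :
    (pairOf K J Q s z).h U V = fderiv ℝ (fderiv ℝ Q) z U V := rfl

end Vale.Agent.P204.Core
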