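import Mathlib
import Vale.Agent.P204.Core.Pair

/-!
# P204 core: the derivatives of the logarithmic potential

`ddc f` is `dJdf` on the product of two coordinate spaces, and `u = log (Q + s²) / 2`.
-/

open Matrix Filter
open scoped ContDiff Topology

namespace Vale.Agent.P204.Core

open Vale.Agent.P204.Torus

/-- A matrix field is smooth at a point. -/
def SmoothMat (J : Pt → M4) (p : Pt) : Prop := ∀ i k, ContDiffAt ℝ ∞ (fun q => J q i k) p

/-- The product structure applied to a constant vector. -/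
def jVec (J₁ J₂ : Pt → M4) (V z : Pt × Pt) : Pt × Pt := (J₁ z.1 *ᵥ V.1, J₂ z.2 *ᵥ V.2)

/-- The one-form `df ∘ J` on a constant vector. -/
noncomputable def dc (J₁ J₂ : Pt → M4) (f : Pt × Pt → ℝ) (V z : Pt × Pt) : ℝ :=
  fderiv ℝ f z (jVec J₁ J₂ V z)

/-- `dJdf` on two constant vectors. -/
noncomputable def ddc (J₁ J₂ : Pt → M4) (f : Pt × Pt → ℝ) (U V z : Pt × Pt) : ℝ :=
  -(fderiv ℝ (dc J₁ J₂ f V) z U - fderiv ℝ (dc J₁ J₂ f U) z V)

variable {J₁ J₂ : Pt → M4} {f Q : Pt × Pt → ℝ} {z : Pt × Pt}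

theorem hasFDerivAt_mulVec_entry {J : Pt → M4} {p : Pt} (hJ : SmoothMat J p) (b : Pt) (i : Fin 4) :
    HasFDerivAt (fun q => (J q *ᵥ b) i)
      (∑ k, b k • fderiv ℝ (fun q => J q i k) p) p := by
  simp only [mulVec, dotProduct]
  exact HasFDerivAt.fun_sum fun k _ =>
    ((hJ i k).differentiableAt (by norm_num)).hasFDerivAt.mul_const (b k)

theorem differentiableAt_mulVec {J : Pt → M4} {p : Pt} (hJ : SmoothMat J p) (b : Pt) :
    DifferentiableAt ℝ (fun q => J q *ᵥ b) p :=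
  differentiableAt_pi.2 fun i => (hasFDerivAt_mulVec_entry hJ b i).differentiableAt

theorem fderiv_mulVec {J : Pt → M4} {p : Pt} (hJ : SmoothMat J p) (b v : Pt) :
    fderiv ℝ (fun q => J q *ᵥ b) p v = derivMat J p v *ᵥ b := by
  funext i
  have h := (hasFDerivAt_apply (𝕜 := ℝ) (F' := fun _ : Fin 4 => ℝ) i _).comp p
    (differentiableAt_mulVec hJ b).hasFDerivAt
  have h' := congrArg (fun T : Pt →L[ℝ] ℝ => T v) (h.unique (hasFDerivAt_mulVec_entry hJ b i))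
  simp only [ContinuousLinearMap.comp_apply, ContinuousLinearMap.proj_apply,
    _root_.sum_apply, _root_.smul_apply, smul_eq_mul] at h'
  rw [h']
  simp [derivMat, mulVec, dotProduct, mul_comm]

theorem smooth_jVec (h₁ : SmoothMat J₁ z.1) (h₂ : SmoothMat J₂ z.2) (V : Pt × Pt) :
    ContDiffAt ℝ ∞ (jVec J₁ J₂ V) z := by
  refine ContDiffAt.prodMk ?_ ?_
  · refine contDiffAt_pi.2 fun i => ?_
    simp only [mulVec, dotProduct]
    exact ContDiffAt.sum fun k _ => ((h₁ i k).comp z contDiffAt_fst).mul contDiffAt_const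
  · refine contDiffAt_pi.2 fun i => ?_
    simp only [mulVec, dotProduct]
    exact ContDiffAt.sum fun k _ => ((h₂ i k).comp z contDiffAt_snd).mul contDiffAt_const

theorem fderiv_jVec (h₁ : SmoothMat J₁ z.1) (h₂ : SmoothMat J₂ z.2) (U V : Pt × Pt) :
    fderiv ℝ (jVec J₁ J₂ V) z U
      = (derivMat J₁ z.1 U.1 *ᵥ V.1, derivMat J₂ z.2 U.2 *ᵥ V.2) := by
  have d₁ := (differentiableAt_mulVec h₁ V.1).hasFDerivAt.comp z hasFDerivAt_fst
  have d₂ := (differentiableAt_mulVec h₂ V.2).hasFDerivAt.comp z hasFDerivAt_snd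
  show fderiv ℝ (fun w : Pt × Pt => (J₁ w.1 *ᵥ V.1, J₂ w.2 *ᵥ V.2)) z U = _
  have d : HasFDerivAt (fun w : Pt × Pt => (J₁ w.1 *ᵥ V.1, J₂ w.2 *ᵥ V.2)) _ z := d₁.prodMk d₂
  rw [d.fderiv]
  simp [fderiv_mulVec h₁, fderiv_mulVec h₂]

theorem smooth_dc (hf : ContDiffAt ℝ ∞ f z) (h₁ : SmoothMat J₁ z.1) (h₂ : SmoothMat J₂ z.2)
    (V : Pt × Pt) : ContDiffAt ℝ ∞ (dc J₁ J₂ f V) z :=
  (hf.fderiv_right (m := ∞) (by norm_num)).clm_apply (smooth_jVec h₁ h₂ V)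

theorem differentiableAt_fderiv_apply {g : Pt × Pt → ℝ} (hg : ContDiffAt ℝ ∞ g z) (A : Pt × Pt) :
    DifferentiableAt ℝ (fun w => fderiv ℝ g w A) z :=
  ((hg.fderiv_right (m := ∞) (by norm_num)).clm_apply contDiffAt_const).differentiableAt (by norm_num)

theorem fderiv_fderiv_apply {g : Pt × Pt → ℝ} (hg : ContDiffAt ℝ ∞ g z) (A U : Pt × Pt) :
    fderiv ℝ (fun w => fderiv ℝ g w A) z U = fderiv ℝ (fderiv ℝ g) z U A := by
  rw [fderiv_clm_apply ((hg.fderiv_right (m := ∞) (by norm_num)).differentiableAt (by norm_num))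
    (differentiableAt_const A)]
  simp

/-- The differential of `dJdf` vanishes. -/
theorem ddc_closed (hf : ContDiffAt ℝ ∞ f z) (h₁ : SmoothMat J₁ z.1) (h₂ : SmoothMat J₂ z.2)
    (U A B : Pt × Pt) :
    fderiv ℝ (ddc J₁ J₂ f A B) z U + fderiv ℝ (ddc J₁ J₂ f B U) z A
      + fderiv ℝ (ddc J₁ J₂ f U A) z B = 0 := by
  have hb := fun V => smooth_dc hf h₁ h₂ V
  have hd := fun V A => differentiableAt_fderiv_apply (hb V) A
  have e : ∀ U A B, fderiv ℝ (ddc J₁ J₂ f A B) z U = -(fderiv ℝ (fderiv ℝ (dc J₁ J₂ f B)) z U A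
      - fderiv ℝ (fderiv ℝ (dc J₁ J₂ f A)) z U B) := fun U A B => by
    show fderiv ℝ (fun w => -(fderiv ℝ (dc J₁ J₂ f B) w A - fderiv ℝ (dc J₁ J₂ f A) w B)) z U = _
    rw [fderiv_fun_neg, fderiv_fun_sub (hd _ _) (hd _ _), _root_.neg_apply, _root_.sub_apply,
      fderiv_fderiv_apply (hb _), fderiv_fderiv_apply (hb _)]
  have hs : ∀ V X Y, fderiv ℝ (fderiv ℝ (dc J₁ J₂ f V)) z X Y
      = fderiv ℝ (fderiv ℝ (dc J₁ J₂ f V)) z Y X :=
    fun V X Y => ((hb V).isSymmSndFDerivAt (by simp; exact ENat.LEInfty.out)) X Y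
  rw [e, e, e, hs B U A, hs U A B, hs A B U]
  ring

theorem smooth_ddc (hf : ContDiffAt ℝ ∞ f z) (h₁ : SmoothMat J₁ z.1) (h₂ : SmoothMat J₂ z.2)
    (U V : Pt × Pt) : ContDiffAt ℝ ∞ (ddc J₁ J₂ f U V) z :=
  ((((smooth_dc hf h₁ h₂ V).fderiv_right (m := ∞) (by norm_num)).clm_apply contDiffAt_const).sub
    (((smooth_dc hf h₁ h₂ U).fderiv_right (m := ∞) (by norm_num)).clm_apply contDiffAt_const)).neg

/-- The derivative of `f · dJdf` minus the exact part is `df ∧ dJdf`. -/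
theorem fderiv_mul_ddc (hf : ContDiffAt ℝ ∞ f z) (h₁ : SmoothMat J₁ z.1) (h₂ : SmoothMat J₂ z.2)
    (U A B : Pt × Pt) :
    fderiv ℝ (fun w => f w * ddc J₁ J₂ f A B w) z U
      + fderiv ℝ (fun w => f w * ddc J₁ J₂ f B U w) z A
      + fderiv ℝ (fun w => f w * ddc J₁ J₂ f U A w) z B
    = fderiv ℝ f z U * ddc J₁ J₂ f A B z + fderiv ℝ f z A * ddc J₁ J₂ f B U z
      + fderiv ℝ f z B * ddc J₁ J₂ f U A z := by
  have hd : ∀ X Y, DifferentiableAt ℝ (ddc J₁ J₂ f X Y) z :=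
    fun X Y => (smooth_ddc hf h₁ h₂ X Y).differentiableAt (by norm_num)
  have hf' : DifferentiableAt ℝ f z := hf.differentiableAt (by norm_num)
  have h0 := ddc_closed hf h₁ h₂ U A B
  have e : ∀ X Y T, fderiv ℝ (fun w => f w * ddc J₁ J₂ f X Y w) z T
      = f z * fderiv ℝ (ddc J₁ J₂ f X Y) z T + fderiv ℝ f z T * ddc J₁ J₂ f X Y z := fun X Y T => by
    rw [fderiv_fun_mul hf' (hd X Y)]
    simp [mul_comm]
  rw [e, e, e]
  linear_combination f z * h0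

theorem ddc_swap (J₁ J₂ : Pt → M4) (f : Pt × Pt → ℝ) (U V : Pt × Pt) :
    ddc J₁ J₂ f U V = fun w => -ddc J₁ J₂ f V U w := by
  funext w; simp [ddc]

/-- The logarithmic potential. -/
noncomputable def logPot (Q : Pt × Pt → ℝ) (s : ℝ) (z : Pt × Pt) : ℝ := Real.log (Q z + s ^ 2) / 2

variable {s : ℝ}

theorem smooth_logPot (hQ : ContDiffAt ℝ ∞ Q z) (h : Q z + s ^ 2 ≠ 0) :
    ContDiffAt ℝ ∞ (logPot Q s) z :=
  ((hQ.add contDiffAt_const).log h).div_const 2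

theorem fderiv_logPot (hQ : DifferentiableAt ℝ Q z) (h : Q z + s ^ 2 ≠ 0) (V : Pt × Pt) :
    fderiv ℝ (logPot Q s) z V = fderiv ℝ Q z V / (2 * (Q z + s ^ 2)) := by
  have h' := ((hQ.hasFDerivAt.add_const (s ^ 2)).log h).mul_const (2 : ℝ)⁻¹
  show fderiv ℝ (fun w => Real.log (Q w + s ^ 2) / 2) z V = _
  simp only [div_eq_mul_inv]
  rw [h'.fderiv]
  simp only [_root_.smul_apply, smul_eq_mul, mul_inv]
  ring

theorem fderiv_dc (hQ : ContDiffAt ℝ ∞ Q z) (h₁ : SmoothMat J₁ z.1) (h₂ : SmoothMat J₂ z.2)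
    (U V : Pt × Pt) :
    fderiv ℝ (dc J₁ J₂ Q V) z U = fderiv ℝ (fderiv ℝ Q) z U (jVec J₁ J₂ V z)
      + fderiv ℝ Q z (derivMat J₁ z.1 U.1 *ᵥ V.1, derivMat J₂ z.2 U.2 *ᵥ V.2) := by
  show fderiv ℝ (fun w => fderiv ℝ Q w (jVec J₁ J₂ V w)) z U = _
  rw [fderiv_clm_apply ((hQ.fderiv_right (m := ∞) (by norm_num)).differentiableAt (by norm_num))
    ((smooth_jVec h₁ h₂ V).differentiableAt (by norm_num))]
  simp [fderiv_jVec h₁ h₂, add_comm]

theorem dc_logPot_eventually (hQ : ContDiffAt ℝ ∞ Q z) (h : Q z + s ^ 2 ≠ 0) (V : Pt × Pt) :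
    dc J₁ J₂ (logPot Q s) V =ᶠ[𝓝 z]
      fun w => dc J₁ J₂ Q V w * (2 * (Q w + s ^ 2))⁻¹ := by
  have hc : ∀ᶠ w in 𝓝 z, Q w + s ^ 2 ≠ 0 :=
    (hQ.continuousAt.add continuousAt_const).eventually_ne h
  have hd : ∀ᶠ w in 𝓝 z, DifferentiableAt ℝ Q w :=
    ((hQ.of_le (m := 1) (by norm_num)).eventually (by norm_num)).mono
      fun w hw => hw.differentiableAt (by norm_num)
  filter_upwards [hc, hd] with w hw hw'
  rw [dc, fderiv_logPot hw' hw, div_eq_mul_inv]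
  rfl

/-- `dJdu` of the logarithmic potential is the expression `dd`. -/
theorem ddc_logPot (K : Jet) (hQ : ContDiffAt ℝ ∞ Q z) (h₁ : SmoothMat J₁ z.1)
    (h₂ : SmoothMat J₂ z.2) (hj : K.j = J₂ z.2) (hjd : ∀ v, K.jd v = derivMat J₂ z.2 v)
    (h : Q z + s ^ 2 ≠ 0) (U V : Pt × Pt) :
    ddc J₁ J₂ (logPot Q s) U V z = (pairOf K J₁ Q s z).dd U V := by
  have hq : DifferentiableAt ℝ Q z := hQ.differentiableAt (by norm_num)
  have e : ∀ U V, fderiv ℝ (dc J₁ J₂ (logPot Q s) V) z U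
      = (pairOf K J₁ Q s z).dBeta U V / (2 * (Q z + s ^ 2))
        - (pairOf K J₁ Q s z).a U * (pairOf K J₁ Q s z).a ((pairOf K J₁ Q s z).jt V)
          / (2 * (Q z + s ^ 2) ^ 2) := fun U V => by
    rw [(dc_logPot_eventually hQ h V).fderiv_eq]
    have hi : HasFDerivAt (fun w => (2 * (Q w + s ^ 2))⁻¹)
        ((-((2 * (Q z + s ^ 2)) ^ 2)⁻¹) • ((2 : ℝ) • fderiv ℝ Q z)) z :=
      (hasDerivAt_inv (mul_ne_zero two_ne_zero h)).comp_hasFDerivAt z
        ((hq.hasFDerivAt.add_const (s ^ 2)).const_mul 2)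
    have hb := ((smooth_dc hQ h₁ h₂ V).differentiableAt (by norm_num)).hasFDerivAt
    rw [(hb.fun_mul hi).fderiv]
    simp only [_root_.add_apply, _root_.smul_apply, smul_eq_mul, fderiv_dc hQ h₁ h₂, dc, jVec,
      PairData.dBeta, PairData.jt, pairOf_a, pairOf_h]
    simp only [pairOf, hj, hjd, LinearMap.coe_mk, AddHom.coe_mk]
    field_simp
    ring
  rw [ddc, e, e]
  simp only [PairData.dd, PairData.curl]
  simp only [pairOf]
  ring

/-- `du ∧ dJdu` for the logarithmic potential. -/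
theorem wedge_logPot (K : Jet) (hQ : ContDiffAt ℝ ∞ Q z) (h₁ : SmoothMat J₁ z.1)
    (h₂ : SmoothMat J₂ z.2) (hj : K.j = J₂ z.2) (hjd : ∀ v, K.jd v = derivMat J₂ z.2 v)
    (h : Q z + s ^ 2 ≠ 0) (U A B : Pt × Pt) :
    fderiv ℝ (fun w => logPot Q s w * ddc J₁ J₂ (logPot Q s) A B w) z U
      - (fderiv ℝ (fun w => logPot Q s w * ddc J₁ J₂ (logPot Q s) U B w) z A
        - fderiv ℝ (fun w => logPot Q s w * ddc J₁ J₂ (logPot Q s) U A w) z B)
    = (pairOf K J₁ Q s z).dudd U A B := by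
  have hu := smooth_logPot (s := s) hQ h
  have e := fderiv_mul_ddc hu h₁ h₂ U A B
  have hsw : fderiv ℝ (fun w => logPot Q s w * ddc J₁ J₂ (logPot Q s) B U w) z A
      = -fderiv ℝ (fun w => logPot Q s w * ddc J₁ J₂ (logPot Q s) U B w) z A := by
    rw [ddc_swap J₁ J₂ (logPot Q s) B U]
    simp only [mul_neg]
    rw [fderiv_fun_neg, _root_.neg_apply]
  rw [hsw] at e
  have hq : DifferentiableAt ℝ Q z := hQ.differentiableAt (by norm_num)
  rw [ddc_logPot K hQ h₁ h₂ hj hjd h, ddc_logPot K hQ h₁ h₂ hj hjd h,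
    ddc_logPot K hQ h₁ h₂ hj hjd h, fderiv_logPot hq h, fderiv_logPot hq h,
    fderiv_logPot hq h] at e
  refine Eq.trans (b := fderiv ℝ Q z U / (2 * (Q z + s ^ 2)) * (pairOf K J₁ Q s z).dd A B
      + fderiv ℝ Q z A / (2 * (Q z + s ^ 2)) * (pairOf K J₁ Q s z).dd B U
      + fderiv ℝ Q z B / (2 * (Q z + s ^ 2)) * (pairOf K J₁ Q s z).dd U A) (by linear_combination e) ?_
  simp only [PairData.dudd, PairData.dd, pairOf_a]
  simp only [pairOf]
  field_simp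
  ring

end Vale.Agent.P204.Core
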