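import Mathlib
import Vale.Agent.P204.Core.TestStmt

/-!
# P204 core: Hermitian geometry of one line, and the bound on the second order part
-/

open Matrix

namespace Vale.Agent.P204.Core

open Vale.Agent.P204.Torus

/-- Bounds on a jet. -/
structure JetBd (K : Jet) (c C : ℝ) : Prop where
  cpos : 0 < c
  jbd : ∀ v, ‖K.j *ᵥ v‖ ≤ C * ‖v‖
  jdbd : ∀ z v, ‖K.jd z *ᵥ v‖ ≤ C * ‖z‖ * ‖v‖
  glow : ∀ v, c * ‖v‖ ^ 2 ≤ ev K.g v v
  gbd : ∀ u v, |ev K.g u v| ≤ C * ‖u‖ * ‖v‖
  gdbd : ∀ z u v, |ev (K.gd z) u v| ≤ C * ‖z‖ * ‖u‖ * ‖v‖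

variable {K : Jet} {c C : ℝ}

theorem JetBd.gnonneg (hb : JetBd K c C) (v : Pt) : 0 ≤ ev K.g v v :=
  le_trans (by have := hb.cpos; positivity) (hb.glow v)

theorem JetBd.Cnonneg (hb : JetBd K c C) : 0 ≤ C := by
  have h := (hb.glow (fun _ => 1)).trans ((le_abs_self _).trans (hb.gbd (fun _ => 1) (fun _ => 1)))
  have h1 : ‖(fun _ => (1 : ℝ) : Pt)‖ = 1 := by simp [pi_norm_const]
  rw [h1] at h
  nlinarith [hb.cpos]

theorem g_jr (K : Jet) (u v : Pt) : ev K.g u (K.j *ᵥ v) = -ev K.g (K.j *ᵥ u) v := by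
  have h := K.herm u (K.j *ᵥ v)
  rw [jj, ev_neg_right] at h
  linarith

theorem g_self_j (K : Jet) (u : Pt) : ev K.g u (K.j *ᵥ u) = 0 := by
  have h := g_jr K u u
  rw [K.symm (K.j *ᵥ u) u] at h
  linarith

theorem offK_comm (K : Jet) (l v : Pt) : offK K l v = offK K v l := by
  simp only [offK]
  rw [K.symm v l, g_jr K v l, K.symm (K.j *ᵥ v) l]
  ring

/-- The component off the line of `l`, times the squared length of `l`. -/
noncomputable def perp (K : Jet) (l u : Pt) : Pt :=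
  ev K.g l l • u - ev K.g u l • l - ev K.g u (K.j *ᵥ l) • (K.j *ᵥ l)

theorem perp_pair (K : Jet) (l u v : Pt) : ev K.g (perp K l u) (perp K l v) = ev K.g l l *
    (ev K.g l l * ev K.g u v - ev K.g u l * ev K.g v l
      - ev K.g u (K.j *ᵥ l) * ev K.g v (K.j *ᵥ l)) := by
  have h1 := g_self_j K l
  have h2 : ev K.g (K.j *ᵥ l) l = 0 := (K.symm _ _).trans h1
  have h3 := K.herm l l
  simp only [perp, sub_eq_add_neg, ev_add_left, ev_add_right, ev_neg_left, ev_neg_right,
    ev_smul_left, ev_smul_right, h1, h2, h3, K.symm l v, K.symm (K.j *ᵥ l) v]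
  ring

theorem offK_eq (K : Jet) (l v : Pt) :
    ev K.g (perp K l v) (perp K l v) = ev K.g l l * offK K l v := by
  rw [perp_pair, offK]; ring

theorem offK_nonneg (hb : JetBd K c C) (l v : Pt) : 0 ≤ offK K l v := by
  have h := hb.gnonneg (perp K l v)
  rw [offK_eq] at h
  by_cases hl : l = 0
  · subst hl; simp [offK, ev]
  · have hL : 0 < ev K.g l l := lt_of_lt_of_le
      (mul_pos hb.cpos (pow_pos (norm_pos_iff.2 hl) 2)) (hb.glow l)
    exact (mul_nonneg_iff_of_pos_left hL).1 h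

/-- The leading coefficient. -/
def lead (K : Jet) (w v l : Pt) : ℝ :=
  ev K.g l l * ev K.g w v - ev K.g w l * ev K.g v l
    - ev K.g w (K.j *ᵥ l) * ev K.g v (K.j *ᵥ l)

theorem abs_lead_le (hb : JetBd K c C) (w v l : Pt) :
    |lead K w v l| ≤ Real.sqrt (offK K l w) * Real.sqrt (offK K l v) := by
  rw [← Real.sqrt_mul (offK_nonneg hb l w)]
  refine Real.abs_le_sqrt ?_
  by_cases hl : l = 0
  · subst hl; simp [lead, offK, ev]
  have hL : 0 < ev K.g l l := lt_of_lt_of_le
    (mul_pos hb.cpos (pow_pos (norm_pos_iff.2 hl) 2)) (hb.glow l)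
  have hq : ∀ t : ℝ, 0 ≤ (ev K.g l l * offK K l v) * (t * t)
      + (2 * (ev K.g l l * lead K w v l)) * t + ev K.g l l * offK K l w := fun t => by
    have h := hb.gnonneg (perp K l w + t • perp K l v)
    simp only [ev_add_left, ev_add_right, ev_smul_left, ev_smul_right, offK_eq,
      K.symm (perp K l v) (perp K l w)] at h
    rw [perp_pair] at h
    simp only [lead]
    linarith [h]
  have hd := discrim_le_zero hq
  simp only [discrim] at hd
  nlinarith [mul_pos hL hL]

/-- Projection on the line of `w`. -/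
noncomputable def prj (K : Jet) (w u : Pt) : Pt :=
  (ev K.g w w)⁻¹ • (ev K.g u w • w + ev K.g u (K.j *ᵥ w) • (K.j *ᵥ w))

theorem prj_sub_sq (K : Jet) {w : Pt} (hw : ev K.g w w ≠ 0) (u : Pt) :
    ev K.g (u - prj K w u) (u - prj K w u) = offK K w u / ev K.g w w := by
  have e : u - prj K w u = (ev K.g w w)⁻¹ • perp K w u := by
    simp only [prj, perp, smul_sub, smul_add, smul_smul, inv_mul_cancel₀ hw, one_smul]
    abel
  rw [e, ev_smul_left, ev_smul_right, offK_eq]
  field_simp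

theorem prj_sq (K : Jet) {w : Pt} (hw : ev K.g w w ≠ 0) (u : Pt) :
    ev K.g (prj K w u) (prj K w u) = ev K.g u u - offK K w u / ev K.g w w := by
  have h1 := g_self_j K w
  have h2 : ev K.g (K.j *ᵥ w) w = 0 := (K.symm _ _).trans h1
  simp only [prj, ev_smul_left, ev_smul_right, ev_add_left, ev_add_right, h1, h2, K.herm w w, offK]
  field_simp
  ring

theorem prj_j (K : Jet) (w u : Pt) : prj K w (K.j *ᵥ u) = K.j *ᵥ prj K w u := by
  simp only [prj, mulVec_smul, mulVec_add, jj, K.herm, smul_neg]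
  rw [g_jr K u w]
  module

theorem prj_add (K : Jet) (w u v : Pt) : prj K w (u + v) = prj K w u + prj K w v := by
  simp only [prj, ev_add_left]; module

theorem prj_smul (K : Jet) (w : Pt) (a : ℝ) (u : Pt) : prj K w (a • u) = a • prj K w u := by
  simp only [prj, ev_smul_left]; module

end Vale.Agent.P204.Core
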