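import Mathlib
import Vale.Agent.P204.Core.Off

/-!
# P204 core: bound on the second order part of `du ∧ dJdu`
-/

open Matrix

namespace Vale.Agent.P204.Core

open Vale.Agent.P204.Torus

variable {K : Jet} {c C : ℝ}

/-- `P2` with its two arguments `l` separated. -/
noncomputable def P2b (K : Jet) (w v l l' : Pt) : ℝ :=
  let a := vecA v
  let b := vecB l
  let b' := vecB l'
  let e₁ := vecB (K.j *ᵥ l)
  let e' := vecB (K.j *ᵥ l')
  let a' := vecA (K.j *ᵥ v)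
  let f := vecA (K.jd w *ᵥ v)
  d11 K w a * (-d21 K w b b' - d21 K w e₁ e'
      - 2 * ev K.g w (K.jd l *ᵥ (K.j *ᵥ l') - K.jd (K.j *ᵥ l) *ᵥ l'))
    + d11 K w b * (d21 K w e' a' + d20 K e' f + d21 K w a b')
    + d11 K w e₁ * (d21 K w a e' - d21 K w b' a' - d20 K b' f)
    + d12 K w a * (-d20 K b b' - d20 K e₁ e')
    + d12 K w b * (d20 K e' a' + d20 K a b')
    + d12 K w e₁ * (d20 K a e' - d20 K b' a')

theorem P2b_diag (K : Jet) (w v l : Pt) : P2b K w v l l = P2 K w v l := rfl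

theorem P2b_sub_v (K : Jet) (w v v' l l' : Pt) :
    P2b K w (v - v') l l' = P2b K w v l l' - P2b K w v' l l' := by
  simp only [P2b, d11, d12, d20, d21, vecA, vecB, sub_eq_add_neg, mulVec_add, mulVec_neg,
    smul_add, smul_neg, map_add, map_neg, map_smul, add_mulVec, neg_mulVec, neg_add_rev,
    ev_add_left, ev_add_right, ev_neg_left, ev_neg_right, ev_add_mat, ev_smul_mat, ev_neg_mat]
  ring

theorem P2b_sub_l (K : Jet) (w v l₁ l₂ l' : Pt) :
    P2b K w v (l₁ - l₂) l' = P2b K w v l₁ l' - P2b K w v l₂ l' := by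
  simp only [P2b, d11, d12, d20, d21, vecA, vecB, sub_eq_add_neg, mulVec_add, mulVec_neg,
    smul_add, smul_neg, map_add, map_neg, map_smul, add_mulVec, neg_mulVec, neg_add_rev, neg_neg,
    ev_add_left, ev_add_right, ev_neg_left, ev_neg_right, ev_add_mat, ev_smul_mat, ev_neg_mat]
  ring

theorem P2b_sub_l' (K : Jet) (w v l l₁ l₂ : Pt) :
    P2b K w v l (l₁ - l₂) = P2b K w v l l₁ - P2b K w v l l₂ := by
  simp only [P2b, d11, d12, d20, d21, vecA, vecB, sub_eq_add_neg, mulVec_add, mulVec_neg,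
    smul_add, smul_neg, map_add, map_neg, map_smul, add_mulVec, neg_mulVec, neg_add_rev, neg_neg,
    ev_add_left, ev_add_right, ev_neg_left, ev_neg_right, ev_add_mat, ev_smul_mat, ev_neg_mat]
  ring

theorem norm_vecA (v : Pt) : ‖vecA v‖ ≤ ‖v‖ := by
  refine max_le le_rfl ?_
  simp only [vecA, norm_smul, Real.norm_eq_abs]
  nlinarith [norm_nonneg v, abs_of_pos (by norm_num : (0:ℝ) < 2⁻¹)]

theorem norm_vecB (v : Pt) : ‖vecB v‖ ≤ ‖v‖ := by
  refine max_le (norm_neg v).le ?_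
  simp only [vecB, norm_smul, Real.norm_eq_abs]
  nlinarith [norm_nonneg v, abs_of_pos (by norm_num : (0:ℝ) < 2⁻¹)]

theorem abs_d11 (hb : JetBd K c C) (w : Pt) (a : Pt × Pt) :
    |d11 K w a| ≤ 2 * C * ‖w‖ * ‖a‖ := by
  rw [d11, abs_mul, abs_two]
  have h := hb.gbd w a.1
  have : C * ‖w‖ * ‖a.1‖ ≤ C * ‖w‖ * ‖a‖ :=
    mul_le_mul_of_nonneg_left (norm_fst_le a) (mul_nonneg hb.Cnonneg (norm_nonneg _))
  linarith

theorem abs_d12 (hb : JetBd K c C) (w : Pt) (a : Pt × Pt) :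
    |d12 K w a| ≤ 2 * C * ‖w‖ ^ 2 * ‖a‖ := by
  refine (abs_add_le _ _).trans ?_
  have hk : 0 ≤ C * ‖w‖ ^ 2 := mul_nonneg hb.Cnonneg (sq_nonneg _)
  nlinarith [hb.gdbd w w a.1, hb.gdbd a.2 w w, mul_le_mul_of_nonneg_left (norm_fst_le a) hk,
    mul_le_mul_of_nonneg_left (norm_snd_le a) hk]

theorem abs_d20 (hb : JetBd K c C) (a b : Pt × Pt) :
    |d20 K a b| ≤ 2 * C * ‖a‖ * ‖b‖ := by
  rw [d20, abs_mul, abs_two]
  have h := hb.gbd a.1 b.1
  have : C * ‖a.1‖ * ‖b.1‖ ≤ C * ‖a‖ * ‖b‖ :=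
    mul_le_mul (mul_le_mul_of_nonneg_left (norm_fst_le a) hb.Cnonneg) (norm_fst_le b)
      (norm_nonneg _) (mul_nonneg hb.Cnonneg (norm_nonneg _))
  linarith

theorem abs_d21 (hb : JetBd K c C) (w : Pt) (a b : Pt × Pt) :
    |d21 K w a b| ≤ 5 * C * ‖w‖ * ‖a‖ * ‖b‖ := by
  refine (abs_add_three _ _ _).trans ?_
  simp only [abs_mul, abs_two]
  have hk : 0 ≤ C * ‖w‖ := mul_nonneg hb.Cnonneg (norm_nonneg _)
  have e1 := mul_le_mul (norm_fst_le a) (norm_fst_le b) (norm_nonneg _) (norm_nonneg a)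
  have e2 := mul_le_mul (norm_snd_le a) (norm_fst_le b) (norm_nonneg _) (norm_nonneg a)
  have e3 := mul_le_mul (norm_snd_le b) (norm_fst_le a) (norm_nonneg _) (norm_nonneg b)
  nlinarith [hb.gdbd w a.1 b.1, hb.gdbd a.2 w b.1, hb.gdbd b.2 w a.1,
    mul_le_mul_of_nonneg_left e1 hk, mul_le_mul_of_nonneg_left e2 hk,
    mul_le_mul_of_nonneg_left e3 hk]

theorem abs_P2b (hb : JetBd K c C) (w v l l' : Pt) :
    |P2b K w v l l'| ≤ 200 * (1 + C) ^ 5 * ‖w‖ ^ 2 * ‖v‖ * ‖l‖ * ‖l'‖ := by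
  set D := 1 + C with hD
  have hC := hb.Cnonneg
  have h0 : 0 ≤ D := by linarith
  have h1 : (1 : ℝ) ≤ D := by linarith
  have hCD : C ≤ D := by linarith
  have na : ‖vecA v‖ ≤ ‖v‖ := norm_vecA v
  have nb : ‖vecB l‖ ≤ ‖l‖ := norm_vecB l
  have nb' : ‖vecB l'‖ ≤ ‖l'‖ := norm_vecB l'
  have ne : ‖vecB (K.j *ᵥ l)‖ ≤ D * ‖l‖ := (norm_vecB _).trans ((hb.jbd l).trans (by gcongr))
  have ne' : ‖vecB (K.j *ᵥ l')‖ ≤ D * ‖l'‖ := (norm_vecB _).trans ((hb.jbd l').trans (by gcongr))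
  have na' : ‖vecA (K.j *ᵥ v)‖ ≤ D * ‖v‖ := (norm_vecA _).trans ((hb.jbd v).trans (by gcongr))
  have nf : ‖vecA (K.jd w *ᵥ v)‖ ≤ D * ‖w‖ * ‖v‖ :=
    (norm_vecA _).trans ((hb.jdbd w v).trans (by gcongr))
  set W := ‖w‖
  set V := ‖v‖
  set L := ‖l‖
  set M := ‖l'‖
  have hW : 0 ≤ W := norm_nonneg _
  have hV : 0 ≤ V := norm_nonneg _
  have hL : 0 ≤ L := norm_nonneg _
  have hM : 0 ≤ M := norm_nonneg _
  have T : ∀ {x y X Y : ℝ}, |x| ≤ X → |y| ≤ Y → |x * y| ≤ X * Y := fun hx hy => by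
    rw [abs_mul]; exact mul_le_mul hx hy (abs_nonneg _) ((abs_nonneg _).trans hx)
  have hj1 : ‖K.jd l *ᵥ (K.j *ᵥ l')‖ ≤ D ^ 2 * L * M := by
    refine (hb.jdbd _ _).trans ?_
    calc C * L * ‖K.j *ᵥ l'‖ ≤ D * L * (D * M) := by
          gcongr; exact (hb.jbd l').trans (by gcongr)
      _ = D ^ 2 * L * M := by ring
  have hj2 : ‖K.jd (K.j *ᵥ l) *ᵥ l'‖ ≤ D ^ 2 * L * M := by
    refine (hb.jdbd _ _).trans ?_
    calc C * ‖K.j *ᵥ l‖ * M ≤ D * (D * L) * M := by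
          gcongr; exact (hb.jbd l).trans (by gcongr)
      _ = D ^ 2 * L * M := by ring
  have hg : |2 * ev K.g w (K.jd l *ᵥ (K.j *ᵥ l') - K.jd (K.j *ᵥ l) *ᵥ l')| ≤ 4 * D ^ 3 * W * L * M := by
    rw [abs_mul, abs_two]
    have h := (hb.gbd w _).trans (mul_le_mul (mul_le_mul_of_nonneg_right hCD hW)
      ((norm_sub_le _ _).trans (add_le_add hj1 hj2)) (norm_nonneg _) (mul_nonneg h0 hW))
    nlinarith
  have h11 : ∀ {a : Pt × Pt} {A : ℝ}, ‖a‖ ≤ A → |d11 K w a| ≤ 2 * D * W * A := fun h =>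
    (abs_d11 hb w _).trans (by gcongr)
  have h12 : ∀ {a : Pt × Pt} {A : ℝ}, ‖a‖ ≤ A → |d12 K w a| ≤ 2 * D * W ^ 2 * A := fun h =>
    (abs_d12 hb w _).trans (by gcongr)
  have h20 : ∀ {a b : Pt × Pt} {A B : ℝ}, ‖a‖ ≤ A → ‖b‖ ≤ B → |d20 K a b| ≤ 2 * D * A * B :=
    fun h h' => (abs_d20 hb _ _).trans (mul_le_mul (mul_le_mul (by linarith) h (norm_nonneg _)
      (by linarith)) h' (norm_nonneg _) (mul_nonneg (by linarith) ((norm_nonneg _).trans h)))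
  have h21 : ∀ {a b : Pt × Pt} {A B : ℝ}, ‖a‖ ≤ A → ‖b‖ ≤ B → |d21 K w a b| ≤ 5 * D * W * A * B :=
    fun h h' => (abs_d21 hb w _ _).trans (mul_le_mul (mul_le_mul
      (mul_le_mul_of_nonneg_right (by linarith) hW) h (norm_nonneg _) (by positivity)) h'
      (norm_nonneg _) (mul_nonneg (by positivity) ((norm_nonneg _).trans h)))
  have u1 := T (h11 na) ((abs_sub _ _).trans (add_le_add ((abs_sub _ _).trans
    (add_le_add ((abs_neg (d21 K w (vecB l) (vecB l'))).trans_le (h21 nb nb')) (h21 ne ne'))) hg))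
  have u2 := T (h11 nb) ((abs_add_three _ _ _).trans
    (add_le_add (add_le_add (h21 ne' na') (h20 ne' nf)) (h21 na nb')))
  have u3 := T (h11 ne) ((abs_sub _ _).trans
    (add_le_add ((abs_sub _ _).trans (add_le_add (h21 na ne') (h21 nb' na'))) (h20 nb' nf)))
  have u4 := T (h12 na) ((abs_sub _ _).trans
    (add_le_add ((abs_neg (d20 K (vecB l) (vecB l'))).trans_le (h20 nb nb')) (h20 ne ne')))
  have u5 := T (h12 nb) ((abs_add_le _ _).trans (add_le_add (h20 ne' na') (h20 na nb')))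
  have u6 := T (h12 ne) ((abs_sub _ _).trans (add_le_add (h20 na ne') (h20 nb' na')))
  refine (abs_add_le _ _).trans ((add_le_add ((abs_add_le _ _).trans (add_le_add ((abs_add_le _ _).trans
    (add_le_add ((abs_add_le _ _).trans (add_le_add ((abs_add_le _ _).trans (add_le_add u1 u2)) u3)) u4)) u5))
    u6).trans ?_)
  have hp : 0 ≤ W ^ 2 * V * L * M := by positivity
  have p2 : D ^ 2 ≤ D ^ 5 := pow_le_pow_right₀ h1 (by norm_num)
  have p3 : D ^ 3 ≤ D ^ 5 := pow_le_pow_right₀ h1 (by norm_num)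
  have p4 : D ^ 4 ≤ D ^ 5 := pow_le_pow_right₀ h1 (by norm_num)
  nlinarith [mul_le_mul_of_nonneg_right p2 hp, mul_le_mul_of_nonneg_right p3 hp,
    mul_le_mul_of_nonneg_right p4 hp, mul_nonneg (pow_nonneg h0 5) hp]

theorem norm_le_of_g (hb : JetBd K c C) {u : Pt} {Y : ℝ} (h : ev K.g u u ≤ Y) :
    ‖u‖ ≤ Real.sqrt (Y / c) := by
  refine (le_abs_self _).trans (Real.abs_le_sqrt ?_)
  rw [le_div_iff₀ hb.cpos, mul_comm]
  exact (hb.glow u).trans h

theorem abs_P2_le (hc : 0 < c) : ∃ B, 0 ≤ B ∧ ∀ (K : Jet), JetBd K c C → ∀ w v l : Pt,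
    c ≤ ‖l‖ → ‖l‖ ≤ 1 → ‖v‖ ≤ 1 →
    |P2 K w v l| ≤ B * (‖w‖ * Real.sqrt (offK K l w) + ‖w‖ ^ 2 * Real.sqrt (offK K l v)) := by
  set D := 1 + |C| + 1 / c with hD
  refine ⟨200 * (1 + |C|) ^ 5 * D ^ 12 * 4, by positivity, fun K hb w v l hl hl1 hv => ?_⟩
  have hC := hb.Cnonneg
  have hD1 : 1 ≤ D := by
    have h := one_div_nonneg.2 hc.le
    have := abs_nonneg C
    linarith
  have hD0 : 0 ≤ D := by linarith
  have hCD : C ≤ D := by
    have h := one_div_nonneg.2 hc.le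
    linarith [le_abs_self C]
  have hcD : 1 / c ≤ D := by linarith [abs_nonneg C]
  rw [abs_of_nonneg hC]
  by_cases hw : w = 0
  · subst hw
    have := abs_P2b hb 0 v l l
    rw [P2b_diag] at this
    simp only [norm_zero] at this ⊢
    simpa using this
  set G := ev K.g w w
  have hG : 0 < G := lt_of_lt_of_le (mul_pos hc (pow_pos (norm_pos_iff.2 hw) 2)) (hb.glow w)
  have hG' : G ≠ 0 := hG.ne'
  set p := prj K w with hp
  have hY : ∀ u, 0 ≤ offK K w u := offK_nonneg hb w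
  have hpn : ∀ u, ‖p u‖ ≤ D * ‖u‖ := fun u => by
    have h := norm_le_of_g hb (u := p u) (Y := C * ‖u‖ ^ 2) (by
      rw [hp, prj_sq K hG']
      have := (le_abs_self _).trans (hb.gbd u u)
      nlinarith [div_nonneg (hY u) hG.le])
    refine h.trans (Real.sqrt_le_iff.2 ⟨by positivity, ?_⟩)
    rw [mul_pow, div_le_iff₀ hc]
    have : C ≤ D ^ 2 * c := by
      have := mul_le_mul_of_nonneg_right hcD hc.le
      rw [one_div, inv_mul_cancel₀ hc.ne'] at this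
      nlinarith
    nlinarith [mul_le_mul_of_nonneg_right this (sq_nonneg ‖u‖)]
  have hd : ∀ u, ‖w‖ * ‖u - p u‖ ≤ D * Real.sqrt (offK K w u) := fun u => by
    have h := norm_le_of_g hb (prj_sub_sq K hG' u).le
    refine (mul_le_mul_of_nonneg_left h (norm_nonneg _)).trans ?_
    refine (mul_le_mul_of_nonneg_left (Real.sqrt_le_sqrt (show offK K w u / G / c
      ≤ D ^ 2 * offK K w u / ‖w‖ ^ 2 from ?_)) (norm_nonneg _)).trans ?_
    · rw [div_div, div_le_div_iff₀ (mul_pos hG hc) (pow_pos (norm_pos_iff.2 hw) 2)]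
      have h2 : ‖w‖ ^ 2 ≤ D ^ 2 * (G * c) := by
        have h3 := mul_le_mul_of_nonneg_right hcD hc.le
        rw [one_div, inv_mul_cancel₀ hc.ne'] at h3
        nlinarith [hb.glow w, mul_le_mul h3 h3 zero_le_one (by positivity),
          mul_le_mul_of_nonneg_left (hb.glow w) hc.le]
      nlinarith [mul_le_mul_of_nonneg_left h2 (hY u)]
    · rw [Real.sqrt_div (by positivity [hY u]), Real.sqrt_sq (norm_nonneg _),
        mul_div_cancel₀ _ (norm_ne_zero_iff.2 hw), Real.sqrt_mul (sq_nonneg _), Real.sqrt_sq hD0]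
  set L := ev K.g l l
  have hcl : c * c ^ 2 ≤ L := (mul_le_mul_of_nonneg_left (pow_le_pow_left₀ hc.le hl 2) hc.le).trans (hb.glow l)
  have hL : 0 < L := lt_of_lt_of_le (by positivity) hcl
  have hiL : 1 / L ≤ D ^ 3 := by
    refine (one_div_le_one_div_of_le (by positivity) hcl).trans ?_
    rw [show 1 / (c * c ^ 2) = (1 / c) ^ 3 by field_simp]
    exact pow_le_pow_left₀ (by positivity) hcD 3
  have hLD : L ≤ D := by
    have := (le_abs_self _).trans (hb.gbd l l)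
    nlinarith [norm_nonneg l, mul_le_mul hl1 hl1 (norm_nonneg _) zero_le_one]
  have e : L • v = perp K l v + (ev K.g v l • l + ev K.g v (K.j *ᵥ l) • (K.j *ᵥ l)) := by
    simp only [perp]; abel
  have e2 : L • (v - p v) = (perp K l v - p (perp K l v))
      + (ev K.g v l • (l - p l) + ev K.g v (K.j *ᵥ l) • (K.j *ᵥ (l - p l))) := by
    rw [smul_sub, e, hp, ← prj_smul, e, prj_add, prj_add, prj_smul, prj_smul, prj_j, mulVec_sub]
    module
  have hperp : ‖perp K l v - p (perp K l v)‖ ≤ 2 * D ^ 3 * Real.sqrt (offK K l v) := by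
    refine (norm_sub_le _ _).trans ?_
    have h := hpn (perp K l v)
    have hn := (norm_le_of_g hb (offK_eq K l v).le).trans (Real.sqrt_le_sqrt
      (show L * offK K l v / c ≤ D ^ 2 * offK K l v by
        rw [div_eq_mul_one_div, sq, mul_right_comm]
        exact mul_le_mul_of_nonneg_right (mul_le_mul hLD hcD (by positivity) hD0) (offK_nonneg hb l v)))
    rw [Real.sqrt_mul (sq_nonneg _), Real.sqrt_sq hD0] at hn
    have h0 : 0 ≤ D * Real.sqrt (offK K l v) := by positivity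
    calc ‖perp K l v‖ + ‖p (perp K l v)‖ ≤ D * Real.sqrt (offK K l v) + D * ‖perp K l v‖ := add_le_add hn h
      _ ≤ D * Real.sqrt (offK K l v) + D * (D * Real.sqrt (offK K l v)) := by gcongr
      _ = (D + D ^ 2) * Real.sqrt (offK K l v) := by ring
      _ ≤ (D ^ 3 + D ^ 3) * Real.sqrt (offK K l v) := by
          gcongr ?_ * _
          exact add_le_add (le_self_pow₀ hD1 (by norm_num)) (pow_le_pow_right₀ hD1 (by norm_num))
      _ = _ := by ring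
  have hcoef : |ev K.g v l| ≤ D ^ 2 ∧ |ev K.g v (K.j *ᵥ l)| ≤ D ^ 2 := by
    constructor
    · refine (hb.gbd v l).trans ?_
      nlinarith [mul_le_mul (mul_le_mul hCD hv (norm_nonneg _) hD0) hl1 (norm_nonneg _)
        (mul_nonneg hD0 zero_le_one), norm_nonneg v, norm_nonneg l]
    · refine (hb.gbd v _).trans ?_
      have hjl : ‖K.j *ᵥ l‖ ≤ D := (hb.jbd l).trans (by nlinarith [norm_nonneg l])
      nlinarith [mul_le_mul (mul_le_mul hCD hv (norm_nonneg _) hD0) hjl (norm_nonneg _)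
        (mul_nonneg hD0 zero_le_one)]
  have hv' : ‖v - p v‖ ≤ D ^ 3 * (2 * D ^ 3 * Real.sqrt (offK K l v) + 2 * D ^ 3 * ‖l - p l‖) := by
    have h : L * ‖v - p v‖ ≤ 2 * D ^ 3 * Real.sqrt (offK K l v) + 2 * D ^ 3 * ‖l - p l‖ := by
      have := congrArg norm e2
      rw [norm_smul, Real.norm_eq_abs, abs_of_pos hL] at this
      rw [this]
      refine (norm_add_le _ _).trans (add_le_add hperp ((norm_add_le _ _).trans ?_))
      rw [norm_smul, norm_smul, Real.norm_eq_abs, Real.norm_eq_abs]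
      have hj := (hb.jbd (l - p l)).trans (mul_le_mul_of_nonneg_right hCD (norm_nonneg _))
      nlinarith [mul_le_mul_of_nonneg_right hcoef.1 (norm_nonneg (l - p l)),
        mul_le_mul hcoef.2 hj (norm_nonneg _) (by positivity),
        mul_le_mul_of_nonneg_right (pow_le_pow_right₀ hD1 (show 2 ≤ 3 by norm_num)) (norm_nonneg (l - p l))]
    calc ‖v - p v‖ = 1 / L * (L * ‖v - p v‖) := by field_simp
      _ ≤ _ := mul_le_mul hiL h (by positivity) (by positivity)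
  have hz : P2b K w (p v) (p l) (p l) = 0 := by
    have hu : ∀ u, p u = (G⁻¹ * ev K.g u w) • w + (G⁻¹ * ev K.g u (K.j *ᵥ w)) • (K.j *ᵥ w) :=
      fun u => by simp only [hp, prj]; module
    rw [P2b_diag, hu v, hu l]
    exact P2_eq_zero K w _ _ _ _
  have e3 : P2 K w v l = P2b K w (v - p v) l l + P2b K w (p v) (l - p l) l
      + P2b K w (p v) (p l) (l - p l) := by
    rw [P2b_sub_v, P2b_sub_l, P2b_sub_l', hz, P2b_diag]; ring
  rw [e3]
  set E := 200 * (1 + C) ^ 5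
  have hE : 0 ≤ E := by positivity
  have hpl : ‖p l‖ ≤ D := (hpn l).trans (mul_le_of_le_one_right hD0 hl1)
  have hpv : ‖p v‖ ≤ D := (hpn v).trans (mul_le_of_le_one_right hD0 hv)
  have B1 : |P2b K w (v - p v) l l| ≤ E * ‖w‖ ^ 2 * ‖v - p v‖ := by
    refine (abs_P2b hb w _ l l).trans ?_
    have hk : 0 ≤ E * ‖w‖ ^ 2 * ‖v - p v‖ := by positivity
    calc E * ‖w‖ ^ 2 * ‖v - p v‖ * ‖l‖ * ‖l‖ ≤ E * ‖w‖ ^ 2 * ‖v - p v‖ * 1 * 1 := by gcongr
      _ = _ := by ring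
  have B2 : |P2b K w (p v) (l - p l) l| ≤ E * ‖w‖ ^ 2 * D * ‖l - p l‖ := by
    refine (abs_P2b hb w _ _ l).trans ?_
    calc E * ‖w‖ ^ 2 * ‖p v‖ * ‖l - p l‖ * ‖l‖ ≤ E * ‖w‖ ^ 2 * D * ‖l - p l‖ * 1 := by gcongr
      _ = _ := by ring
  have B3 : |P2b K w (p v) (p l) (l - p l)| ≤ E * ‖w‖ ^ 2 * D * D * ‖l - p l‖ := by
    refine (abs_P2b hb w _ _ _).trans ?_
    gcongr
  refine (abs_add_three _ _ _).trans ((add_le_add (add_le_add B1 B2) B3).trans ?_)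
  have hl' : ‖w‖ * ‖l - p l‖ ≤ D * Real.sqrt (offK K l w) := by rw [offK_comm]; exact hd l
  set sl := Real.sqrt (offK K l w)
  set sv := Real.sqrt (offK K l v)
  have hw0 := norm_nonneg w
  have hsl : 0 ≤ sl := Real.sqrt_nonneg _
  have hsv : 0 ≤ sv := Real.sqrt_nonneg _
  have hA : ‖w‖ ^ 2 * ‖v - p v‖ ≤ 2 * D ^ 6 * (‖w‖ ^ 2 * sv) + 2 * D ^ 7 * (‖w‖ * sl) := by
    calc ‖w‖ ^ 2 * ‖v - p v‖ ≤ ‖w‖ ^ 2 * (D ^ 3 * (2 * D ^ 3 * sv + 2 * D ^ 3 * ‖l - p l‖)) := by gcongr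
      _ = 2 * D ^ 6 * (‖w‖ ^ 2 * sv) + 2 * D ^ 6 * ‖w‖ * (‖w‖ * ‖l - p l‖) := by ring
      _ ≤ 2 * D ^ 6 * (‖w‖ ^ 2 * sv) + 2 * D ^ 6 * ‖w‖ * (D * sl) := by gcongr
      _ = _ := by ring
  have hB : ‖w‖ ^ 2 * ‖l - p l‖ ≤ D * (‖w‖ * sl) := by
    calc ‖w‖ ^ 2 * ‖l - p l‖ = ‖w‖ * (‖w‖ * ‖l - p l‖) := by ring
      _ ≤ ‖w‖ * (D * sl) := by gcongr
      _ = _ := by ring
  have k1 : ∀ n : ℕ, n ≤ 12 → D ^ n ≤ D ^ 12 := fun n hn => pow_le_pow_right₀ hD1 hn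
  have X : 0 ≤ ‖w‖ ^ 2 * sv := by positivity
  have Z : 0 ≤ ‖w‖ * sl := by positivity
  calc E * ‖w‖ ^ 2 * ‖v - p v‖ + E * ‖w‖ ^ 2 * D * ‖l - p l‖ + E * ‖w‖ ^ 2 * D * D * ‖l - p l‖
      = E * (‖w‖ ^ 2 * ‖v - p v‖) + E * (D + D ^ 2) * (‖w‖ ^ 2 * ‖l - p l‖) := by ring
    _ ≤ E * (2 * D ^ 6 * (‖w‖ ^ 2 * sv) + 2 * D ^ 7 * (‖w‖ * sl)) + E * (D + D ^ 2) * (D * (‖w‖ * sl)) := by gcongr
    _ = E * (2 * D ^ 6) * (‖w‖ ^ 2 * sv) + E * (2 * D ^ 7 + D ^ 2 + D ^ 3) * (‖w‖ * sl) := by ring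
    _ ≤ E * (D ^ 12 * 4) * (‖w‖ ^ 2 * sv) + E * (D ^ 12 * 4) * (‖w‖ * sl) := by
        have h0 := pow_nonneg hD0 12
        refine add_le_add (mul_le_mul_of_nonneg_right (mul_le_mul_of_nonneg_left ?_ hE) X)
          (mul_le_mul_of_nonneg_right (mul_le_mul_of_nonneg_left ?_ hE) Z)
        · linarith [k1 6 (by norm_num)]
        · linarith [k1 7 (by norm_num), k1 2 (by norm_num), k1 3 (by norm_num)]
    _ = _ := by ring

end Vale.Agent.P204.Core
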