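import Mathlib
import Vale.Agent.P204.Core.Calc

/-!
# P204 core: pullbacks of `dJdf` and of exterior derivatives, and partial derivatives
-/

open Matrix Filter
open scoped ContDiff Topology

namespace Vale.Agent.P204.Core

open Vale.Agent.P204.Torus

section general

variable {D E : Type*} [NormedAddCommGroup D] [NormedSpace ℝ D] [NormedAddCommGroup E]
  [NormedSpace ℝ E]

theorem differentiableAt_clm [FiniteDimensional ℝ E] {B : D → E →L[ℝ] ℝ} {y : D}
    (h : ∀ v, DifferentiableAt ℝ (fun w => B w v) y) : DifferentiableAt ℝ B y := by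
  let b := Module.finBasis ℝ E
  have e : B = fun w => ∑ i, B w (b i) • (b.coord i).toContinuousLinearMap := by
    funext w
    ext v
    conv_lhs => rw [← b.sum_repr v]
    simp only [map_sum, map_smul, _root_.sum_apply, _root_.smul_apply, LinearMap.coe_toContinuousLinearMap',
      Module.Basis.coord_apply, smul_eq_mul]
    exact Finset.sum_congr rfl fun i _ => mul_comm _ _
  rw [e]
  exact DifferentiableAt.fun_sum fun i _ => (h (b i)).smul_const _

theorem fderiv_apply_const {B : D → E →L[ℝ] ℝ} {y : D} (hB : DifferentiableAt ℝ B y) (V : E)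
    (U : D) : fderiv ℝ (fun w => B w V) y U = fderiv ℝ B y U V := by
  rw [fderiv_clm_apply hB (differentiableAt_const V)]
  simp

/-- The exterior derivative commutes with pullback. -/
theorem curl_pullback {Φ : D → E} {B : E → E →L[ℝ] ℝ} {z : D} (hΦ : ContDiffAt ℝ ∞ Φ z)
    (hB : DifferentiableAt ℝ B (Φ z)) (U V : D) :
    fderiv ℝ (fun w => B (Φ w) (fderiv ℝ Φ w V)) z U
      - fderiv ℝ (fun w => B (Φ w) (fderiv ℝ Φ w U)) z V
    = fderiv ℝ B (Φ z) (fderiv ℝ Φ z U) (fderiv ℝ Φ z V)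
      - fderiv ℝ B (Φ z) (fderiv ℝ Φ z V) (fderiv ℝ Φ z U) := by
  have h1 : DifferentiableAt ℝ Φ z := hΦ.differentiableAt (by norm_num)
  have h2 : DifferentiableAt ℝ (fderiv ℝ Φ) z :=
    (hΦ.fderiv_right (m := ∞) (by norm_num)).differentiableAt (by norm_num)
  have h3 : DifferentiableAt ℝ (fun w => B (Φ w)) z := hB.comp z h1
  have e : ∀ U V, fderiv ℝ (fun w => B (Φ w) (fderiv ℝ Φ w V)) z U
      = fderiv ℝ B (Φ z) (fderiv ℝ Φ z U) (fderiv ℝ Φ z V)
        + B (Φ z) (fderiv ℝ (fderiv ℝ Φ) z U V) := fun U V => by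
    rw [fderiv_clm_apply h3 (h2.clm_apply (differentiableAt_const V)),
      fderiv_clm_apply h2 (differentiableAt_const V),
      show (fun w => B (Φ w)) = B ∘ Φ from rfl, fderiv_comp z hB h1]
    simp [add_comm]
  rw [e, e, (hΦ.isSymmSndFDerivAt (by simp; exact ENat.LEInfty.out)) U V]
  ring

end general

theorem differentiableAt_coord {β : Pt → Pt} {p : Pt}
    (h : ∀ k, DifferentiableAt ℝ (fun q => β q k) p) (v : Pt) :
    DifferentiableAt ℝ (fun q => β q ⬝ᵥ v) p := by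
  simp only [dotProduct]
  exact DifferentiableAt.fun_sum fun k _ => (h k).mul_const (v k)

/-- The exterior derivative of a pulled back one-form. -/
theorem dOne_pullback {T β : Pt → Pt} {p : Pt} (hT : ContDiffAt ℝ ∞ T p)
    (hβ : ∀ k, DifferentiableAt ℝ (fun q => β q k) (T p)) (i k : Fin 4) :
    dOne (fun q j => β (T q) ⬝ᵥ fderiv ℝ T q (Pi.single j 1)) p i k
      = fderiv ℝ T p (Pi.single i 1)
          ⬝ᵥ (dOne β (T p) *ᵥ fderiv ℝ T p (Pi.single k 1)) := by
  let B : Pt → Pt →L[ℝ] ℝ := fun y => ∑ a, β y a • ContinuousLinearMap.proj a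
  have hBv : ∀ y v, B y v = β y ⬝ᵥ v := fun y v => by simp [B, dotProduct]
  have hB : DifferentiableAt ℝ B (T p) :=
    DifferentiableAt.fun_sum fun a _ => (hβ a).smul_const _
  have h := curl_pullback hT hB (Pi.single i 1) (Pi.single k 1)
  simp only [hBv] at h
  simp only [dOne, Matrix.of_apply, pd, h]
  set u := fderiv ℝ T p (Pi.single i 1)
  set v := fderiv ℝ T p (Pi.single k 1)
  have hd : ∀ u v : Pt, fderiv ℝ B (T p) u v
      = ∑ a, ∑ b, u b * pd b (fun q => β q a) (T p) * v a := fun u v => by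
    rw [← fderiv_apply_const hB]
    simp only [hBv, dotProduct]
    rw [fderiv_fun_sum fun a _ => (hβ a).mul_const (v a)]
    simp only [_root_.sum_apply]
    refine Finset.sum_congr rfl fun a _ => ?_
    rw [fderiv_mul_const (hβ a), _root_.smul_apply, smul_eq_mul, ← Finset.sum_mul, mul_comm (v a)]
    congr 1
    have hu : u = ∑ b, u b • Pi.single (M := fun _ => ℝ) b 1 := by
      funext c; simp [Finset.sum_apply, Pi.single_apply]
    conv_lhs => rw [hu, map_sum]
    simp [pd]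
  rw [hd, hd]
  simp only [pd, dotProduct, mulVec, Matrix.of_apply, Finset.mul_sum, mul_sub, sub_mul,
    Finset.sum_sub_distrib]
  congr 1
  · rw [Finset.sum_comm]
    exact Finset.sum_congr rfl fun b _ => Finset.sum_congr rfl fun a _ => by ring
  · exact Finset.sum_congr rfl fun b _ => Finset.sum_congr rfl fun a _ => by ring

variable {J₁ J₂ J₁' J₂' : Pt → M4} {f : Pt × Pt → ℝ} {z : Pt × Pt}

/-- `df ∘ J` as a linear map. -/
noncomputable def dcL (J₁ J₂ : Pt → M4) (f : Pt × Pt → ℝ) (w : Pt × Pt) : Pt × Pt →L[ℝ] ℝ :=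
  (fderiv ℝ f w).comp (((Matrix.mulVecLin (J₁ w.1)).toContinuousLinearMap).prodMap
    ((Matrix.mulVecLin (J₂ w.2)).toContinuousLinearMap))

theorem dcL_apply (J₁ J₂ : Pt → M4) (f : Pt × Pt → ℝ) (w V : Pt × Pt) :
    dcL J₁ J₂ f w V = dc J₁ J₂ f V w := rfl

/-- `dJdf` commutes with pseudoholomorphic maps. -/
theorem ddc_pullback {Φ : Pt × Pt → Pt × Pt} (hΦ : ContDiffAt ℝ ∞ Φ z)
    (hf : ContDiffAt ℝ ∞ f (Φ z)) (h₁ : SmoothMat J₁ (Φ z).1) (h₂ : SmoothMat J₂ (Φ z).2)
    (hJ : ∀ᶠ w in 𝓝 z, ∀ V,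
      fderiv ℝ Φ w (jVec J₁' J₂' V w) = jVec J₁ J₂ (fderiv ℝ Φ w V) (Φ w))
    (U V : Pt × Pt) :
    ddc J₁' J₂' (fun w => f (Φ w)) U V z
      = ddc J₁ J₂ f (fderiv ℝ Φ z U) (fderiv ℝ Φ z V) (Φ z) := by
  have hB : DifferentiableAt ℝ (dcL J₁ J₂ f) (Φ z) := differentiableAt_clm fun v => by
    simp only [dcL_apply]
    exact (smooth_dc hf h₁ h₂ v).differentiableAt (by norm_num)
  have hfd : ∀ᶠ w in 𝓝 z, DifferentiableAt ℝ f (Φ w) :=
    hΦ.continuousAt.eventually (((hf.of_le (m := 1) (by norm_num)).eventually (by norm_num)).mono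
      fun w hw => hw.differentiableAt (by norm_num))
  have hΦd : ∀ᶠ w in 𝓝 z, DifferentiableAt ℝ Φ w :=
    ((hΦ.of_le (m := 1) (by norm_num)).eventually (by norm_num)).mono
      fun w hw => hw.differentiableAt (by norm_num)
  have e : ∀ X, dc J₁' J₂' (fun w => f (Φ w)) X
      =ᶠ[𝓝 z] fun w => dcL J₁ J₂ f (Φ w) (fderiv ℝ Φ w X) := fun X => by
    filter_upwards [hfd, hΦd, hJ] with w hw hw' hw''
    show fderiv ℝ (f ∘ Φ) w (jVec J₁' J₂' X w) = _
    rw [fderiv_comp w hw hw', ContinuousLinearMap.comp_apply, hw'' X]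
    rfl
  rw [ddc, (e V).fderiv_eq, (e U).fderiv_eq, curl_pullback hΦ hB, ← fderiv_apply_const hB,
    ← fderiv_apply_const hB]
  simp only [dcL_apply]
  rfl

theorem fderiv_left {F : Pt × Pt → ℝ} {p q : Pt} (h : DifferentiableAt ℝ F (p, q)) (v : Pt) :
    fderiv ℝ (fun t => F (t, q)) p v = fderiv ℝ F (p, q) (v, 0) := by
  have h' := h.hasFDerivAt.comp (f := fun t => (t, q)) p
    ((hasFDerivAt_id p).prodMk (hasFDerivAt_const q p))
  rw [show (fun t => F (t, q)) = F ∘ fun t => (t, q) from rfl, h'.fderiv]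
  rfl

theorem fderiv_right {F : Pt × Pt → ℝ} {p q : Pt} (h : DifferentiableAt ℝ F (p, q)) (v : Pt) :
    fderiv ℝ (fun t => F (p, t)) q v = fderiv ℝ F (p, q) (0, v) := by
  have h' := h.hasFDerivAt.comp (f := fun t => (p, t)) q
    ((hasFDerivAt_const p q).prodMk (hasFDerivAt_id q))
  rw [show (fun t => F (p, t)) = F ∘ fun t => (p, t) from rfl, h'.fderiv]
  rfl

end Vale.Agent.P204.Core
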