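import Mathlib
import Vale.Agent.P204.Core.P2Bound

/-!
# P204 core: first consequences of an expansion of the squared distance
-/

open Matrix

namespace Vale.Agent.P204.Core

open Vale.Agent.P204.Torus

variable {P : PairData} {w : Pt} {r c C : ℝ}

theorem norm_conv (V : Pt × Pt) : ‖conv V‖ ≤ 2 * ‖V‖ := by
  have h1 := norm_fst_le V
  have h2 := norm_snd_le V
  refine max_le ?_ ?_
  · exact (norm_sub_le _ _).trans (by linarith)
  · simp only [conv, norm_smul, Real.norm_eq_abs, abs_of_pos (by norm_num : (0:ℝ) < 2⁻¹)]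
    linarith [norm_add_le V.1 V.2, norm_nonneg V]

theorem Expansion.jetBd (h : P.Expansion w r c C) (hc : 0 < c) : JetBd P.K c C :=
  ⟨hc, h.jbd, h.jdbd, h.glow, h.gbd, h.gdbd⟩

/-- The regularised distance. -/
noncomputable def rr (P : PairData) (r : ℝ) : ℝ := Real.sqrt (r ^ 2 + P.s ^ 2)

theorem rr_sq (P : PairData) (r : ℝ) : rr P r ^ 2 = r ^ 2 + P.s ^ 2 :=
  Real.sq_sqrt (add_nonneg (sq_nonneg r) (sq_nonneg _))

theorem rr_pos (h : P.s ≠ 0 ∨ 0 < r) : 0 < rr P r := by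
  refine Real.sqrt_pos.2 ?_
  rcases h with h | h
  · exact add_pos_of_nonneg_of_pos (sq_nonneg r) (by positivity)
  · exact add_pos_of_pos_of_nonneg (by positivity) (sq_nonneg _)

theorem le_rr (P : PairData) (hr : 0 ≤ r) : r ≤ rr P r := by
  refine (abs_of_nonneg hr).symm.trans_le (Real.abs_le_sqrt ?_)
  linarith [sq_nonneg P.s]

/-- Division by the regularised squared distance. -/
theorem div_le_rr (h : P.Expansion w r c C) (hc : 0 < c) (hp : P.s ≠ 0 ∨ 0 < r) {x X : ℝ}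
    (hx : |x| ≤ X) : |x / (P.q + P.s ^ 2)| ≤ X / c / rr P r ^ 2 := by
  have h1 : 0 < c * rr P r ^ 2 := mul_pos hc (pow_pos (rr_pos hp) 2)
  have h2 : c * rr P r ^ 2 ≤ P.q + P.s ^ 2 := by rw [rr_sq]; exact h.qlow
  rw [abs_div, abs_of_pos (h1.trans_le h2), div_div]
  exact div_le_div₀ ((abs_nonneg _).trans hx) hx h1 h2

theorem abs_jt (h : P.Expansion w r c C) (hC : 0 ≤ C) (V : Pt × Pt) :
    ‖P.jt V‖ ≤ (C + 2 * C ^ 3) * ‖V‖ := by
  have hr := h.rnonneg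
  have h1 := norm_fst_le V
  have h2 := norm_snd_le V
  refine max_le ?_ ?_
  · have e : P.jx *ᵥ V.1 = (P.jx *ᵥ V.1 - P.K.j *ᵥ V.1 - P.K.jd w *ᵥ V.1)
        + (P.K.j *ᵥ V.1 + P.K.jd w *ᵥ V.1) := by abel
    have hj := (h.jexp V.1)
    have hd : ‖P.K.jd w *ᵥ V.1‖ ≤ C ^ 3 * ‖V‖ := by
      refine (h.jdbd w V.1).trans ?_
      calc C * ‖w‖ * ‖V.1‖ ≤ C * (C * C) * ‖V‖ := by
            gcongr; exact h.wle.trans (by gcongr; exact h.rle)
        _ = _ := by ring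
    have he : C * r ^ 2 * ‖V.1‖ ≤ C ^ 3 * ‖V‖ := by
      calc C * r ^ 2 * ‖V.1‖ ≤ C * C ^ 2 * ‖V‖ := by gcongr; exact h.rle
        _ = _ := by ring
    calc ‖P.jx *ᵥ V.1‖ ≤ _ := (congrArg norm e).trans_le ((norm_add_le _ _).trans
          (add_le_add hj (norm_add_le _ _)))
      _ ≤ C ^ 3 * ‖V‖ + (C * ‖V‖ + C ^ 3 * ‖V‖) := by
          gcongr; exact (h.jbd V.1).trans (by gcongr)
      _ = _ := by ring
  · refine (h.jbd V.2).trans ?_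
    have : 0 ≤ C ^ 3 * ‖V‖ := by positivity
    nlinarith [mul_le_mul_of_nonneg_left h2 hC]

theorem abs_a (h : P.Expansion w r c C) (hc : 0 < c) (V : Pt × Pt) :
    |P.a V| ≤ (5 * (1 + C) ^ 4) * r * ‖V‖ := by
  have hb := Expansion.jetBd h hc
  have hC := hb.Cnonneg
  have hr := h.rnonneg
  have e : |P.a V| ≤ |P.a V - (d11 P.K w (conv V) + d12 P.K w (conv V))|
      + (|d11 P.K w (conv V)| + |d12 P.K w (conv V)|) := by
    refine le_trans (le_of_eq (congrArg _ ?_)) ((abs_add_le _ _).trans (add_le_add le_rfl (abs_add_le _ _)))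
    ring
  have h1 : |d11 P.K w (conv V)| ≤ 4 * C ^ 2 * r * ‖V‖ := (abs_d11 hb _ _).trans (by
    calc 2 * C * ‖w‖ * ‖conv V‖ ≤ 2 * C * (C * r) * (2 * ‖V‖) := by
          gcongr; exacts [h.wle, norm_conv V]
      _ = _ := by ring)
  have h2 : |d12 P.K w (conv V)| ≤ 4 * C ^ 4 * r * ‖V‖ := (abs_d12 hb _ _).trans (by
    calc 2 * C * ‖w‖ ^ 2 * ‖conv V‖ ≤ 2 * C * (C * r) ^ 2 * (2 * ‖V‖) := by
          gcongr; exacts [h.wle, norm_conv V]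
      _ = 4 * C ^ 3 * r * r * ‖V‖ := by ring
      _ ≤ 4 * C ^ 3 * r * C * ‖V‖ := by gcongr; exact h.rle
      _ = _ := by ring)
  have h3 := (h.aexp V).trans (show C * r ^ 3 * ‖V‖ ≤ C ^ 3 * r * ‖V‖ by
    calc C * r ^ 3 * ‖V‖ = C * r * r * r * ‖V‖ := by ring
      _ ≤ C * C * C * r * ‖V‖ := by gcongr <;> exact h.rle
      _ = _ := by ring)
  refine (e.trans (add_le_add h3 (add_le_add h1 h2))).trans ?_
  have hX : 0 ≤ r * ‖V‖ := by positivity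
  have p1 : 4 * C ^ 4 + C ^ 3 + 4 * C ^ 2 ≤ 5 * (1 + C) ^ 4 := by
    nlinarith [pow_nonneg hC 2, pow_nonneg hC 3, pow_nonneg hC 4]
  nlinarith [mul_le_mul_of_nonneg_right p1 hX]

theorem abs_h_sub (h : P.Expansion w r c C) (hc : 0 < c) (U V : Pt × Pt) :
    |P.h U V - d20 P.K (conv U) (conv V)| ≤ 25 * (1 + C) ^ 2 * r * ‖U‖ * ‖V‖ := by
  have hb := Expansion.jetBd h hc
  have hC := hb.Cnonneg
  have hr := h.rnonneg
  have e : |P.h U V - d20 P.K (conv U) (conv V)|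
      ≤ |P.h U V - (d20 P.K (conv U) (conv V) + d21 P.K w (conv U) (conv V))|
        + |d21 P.K w (conv U) (conv V)| := by
    refine le_trans (le_of_eq (congrArg _ ?_)) (abs_add_le _ _)
    ring
  have h1 : |d21 P.K w (conv U) (conv V)| ≤ 20 * C ^ 2 * r * ‖U‖ * ‖V‖ :=
    (abs_d21 hb _ _ _).trans (by
      calc 5 * C * ‖w‖ * ‖conv U‖ * ‖conv V‖ ≤ 5 * C * (C * r) * (2 * ‖U‖) * (2 * ‖V‖) := by
            gcongr; exacts [h.wle, norm_conv U, norm_conv V]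
        _ = _ := by ring)
  have h2 := (h.hexp U V).trans (show C * r ^ 2 * ‖U‖ * ‖V‖ ≤ C ^ 2 * r * ‖U‖ * ‖V‖ by
    calc C * r ^ 2 * ‖U‖ * ‖V‖ = C * r * r * ‖U‖ * ‖V‖ := by ring
      _ ≤ C * C * r * ‖U‖ * ‖V‖ := by gcongr; exact h.rle
      _ = _ := by ring)
  refine (e.trans (add_le_add h2 h1)).trans ?_
  have hX : 0 ≤ r * ‖U‖ * ‖V‖ := by positivity
  nlinarith [mul_le_mul_of_nonneg_right (show 21 * C ^ 2 ≤ 25 * (1 + C) ^ 2 by nlinarith) hX]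

theorem abs_h (h : P.Expansion w r c C) (hc : 0 < c) (U V : Pt × Pt) :
    |P.h U V| ≤ 40 * (1 + C) ^ 3 * ‖U‖ * ‖V‖ := by
  have hb := Expansion.jetBd h hc
  have hC := hb.Cnonneg
  have h0 : |d20 P.K (conv U) (conv V)| ≤ 8 * C * ‖U‖ * ‖V‖ := (abs_d20 hb _ _).trans (by
    calc 2 * C * ‖conv U‖ * ‖conv V‖ ≤ 2 * C * (2 * ‖U‖) * (2 * ‖V‖) := by
          gcongr <;> exact norm_conv _
      _ = _ := by ring)
  have h1 := abs_h_sub h hc U V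
  have h2 : 25 * (1 + C) ^ 2 * r * ‖U‖ * ‖V‖ ≤ 25 * (1 + C) ^ 2 * C * ‖U‖ * ‖V‖ := by
    gcongr; exact h.rle
  refine (abs_le.2 ⟨?_, ?_⟩)
  all_goals
    have hX : 0 ≤ ‖U‖ * ‖V‖ := by positivity
    have := mul_le_mul_of_nonneg_right
      (show 8 * C + 25 * (1 + C) ^ 2 * C ≤ 40 * (1 + C) ^ 3 by nlinarith [pow_nonneg hC 3]) hX
    nlinarith [abs_le.1 h1, abs_le.1 h0]

theorem abs_dBeta_rem (h : P.Expansion w r c C) (hc : 0 < c) (U V : Pt × Pt) :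
    |P.a (P.jdx U.1 *ᵥ V.1, P.K.jd U.2 *ᵥ V.2)| ≤ 10 * (1 + C) ^ 6 * r * ‖U‖ * ‖V‖ := by
  have hb := Expansion.jetBd h hc
  have hC := hb.Cnonneg
  have hr := h.rnonneg
  have hn : ‖(P.jdx U.1 *ᵥ V.1, P.K.jd U.2 *ᵥ V.2)‖ ≤ (C + C ^ 2) * ‖U‖ * ‖V‖ := by
    refine max_le ?_ ?_
    · have := (norm_le_norm_add_norm_sub' (P.jdx U.1 *ᵥ V.1) (P.K.jd U.1 *ᵥ V.1)).trans
        (add_le_add (h.jdbd U.1 V.1) (h.jdexp U.1 V.1))
      refine this.trans ?_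
      calc C * ‖U.1‖ * ‖V.1‖ + C * r * ‖U.1‖ * ‖V.1‖ ≤ C * ‖U‖ * ‖V‖ + C * C * ‖U‖ * ‖V‖ := by
            gcongr; exacts [norm_fst_le U, norm_fst_le V, h.rle, norm_fst_le U, norm_fst_le V]
        _ = _ := by ring
    · refine (h.jdbd _ _).trans ?_
      calc C * ‖U.2‖ * ‖V.2‖ ≤ (C + C ^ 2) * ‖U‖ * ‖V‖ := by
            gcongr; exacts [le_add_of_nonneg_right (sq_nonneg C), norm_snd_le U, norm_snd_le V]
        _ = _ := rfl
  refine (abs_a h hc _).trans ((mul_le_mul_of_nonneg_left hn (by positivity)).trans ?_)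
  have hX : 0 ≤ r * ‖U‖ * ‖V‖ := by positivity
  nlinarith [mul_le_mul_of_nonneg_right
    (show 5 * (1 + C) ^ 4 * (C + C ^ 2) ≤ 10 * (1 + C) ^ 6 by
      nlinarith [pow_nonneg (by linarith : 0 ≤ 1 + C) 4, sq_nonneg C]) hX]

theorem abs_curl (h : P.Expansion w r c C) (hc : 0 < c) (U V : Pt × Pt) :
    |P.curl U V| ≤ 300 * (1 + C) ^ 7 * ‖U‖ * ‖V‖ := by
  have hC := (Expansion.jetBd h hc).Cnonneg
  have hr := h.rnonneg
  have hj : C + 2 * C ^ 3 ≤ 3 * (1 + C) ^ 3 := by nlinarith [pow_nonneg hC 3, sq_nonneg C]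
  have hd : ∀ A B : Pt × Pt, |P.dBeta A B| ≤ 150 * (1 + C) ^ 7 * ‖A‖ * ‖B‖ := fun A B => by
    refine (abs_add_le _ _).trans ((add_le_add ((abs_h h hc _ _).trans
      (mul_le_mul_of_nonneg_left (abs_jt h hC B) (by positivity))) (abs_dBeta_rem h hc A B)).trans ?_)
    calc 40 * (1 + C) ^ 3 * ‖A‖ * ((C + 2 * C ^ 3) * ‖B‖) + 10 * (1 + C) ^ 6 * r * ‖A‖ * ‖B‖
        ≤ 40 * (1 + C) ^ 3 * ‖A‖ * (3 * (1 + C) ^ 3 * ‖B‖) + 10 * (1 + C) ^ 6 * (1 + C) * ‖A‖ * ‖B‖ := by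
          gcongr; linarith [h.rle]
      _ = (120 * (1 + C) ^ 6 + 10 * (1 + C) ^ 7) * (‖A‖ * ‖B‖) := by ring
      _ ≤ 150 * (1 + C) ^ 7 * (‖A‖ * ‖B‖) := by
          gcongr
          have : (1 + C) ^ 6 ≤ (1 + C) ^ 7 := pow_le_pow_right₀ (by linarith) (by norm_num)
          linarith [pow_nonneg (show 0 ≤ 1 + C by linarith) 7]
      _ = _ := by ring
  refine (abs_sub _ _).trans ((add_le_add (hd U V) (hd V U)).trans_eq ?_)
  ring

end Vale.Agent.P204.Core
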