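import Mathlib
import Vale.Agent.P204.Core.TestBase

/-!
# P204 core: `dJdu` on the second factor
-/

open Matrix

namespace Vale.Agent.P204.Core

open Vale.Agent.P204.Torus

variable {P : PairData} {w : Pt} {r c C : ℝ}

theorem norm_snd_pair (v : Pt) : ‖((0 : Pt), v)‖ = ‖v‖ := by simp [Prod.norm_def]

theorem norm_fst_pair (v : Pt) : ‖(v, (0 : Pt))‖ = ‖v‖ := by simp [Prod.norm_def]

theorem jt_snd (P : PairData) (v : Pt) : P.jt (0, v) = (0, P.K.j *ᵥ v) := by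
  simp [PairData.jt]

theorem d20_snd (K : Jet) (u v : Pt) : d20 K (conv (0, u)) (conv (0, v)) = 2 * ev K.g u v := by
  simp [d20, conv, ev_neg_left, ev_neg_right]

theorem curl_snd (h : P.Expansion w r c C) (hc : 0 < c) (u v : Pt) :
    |P.curl (0, u) (0, v) - (2 * ev P.K.g u (P.K.j *ᵥ v) - 2 * ev P.K.g v (P.K.j *ᵥ u))|
      ≤ 70 * (1 + C) ^ 6 * r * ‖u‖ * ‖v‖ := by
  have hC := (Expansion.jetBd h hc).Cnonneg
  have hr := h.rnonneg
  have hd : ∀ a b : Pt, |P.dBeta (0, a) (0, b) - 2 * ev P.K.g a (P.K.j *ᵥ b)|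
      ≤ 35 * (1 + C) ^ 6 * r * ‖a‖ * ‖b‖ := fun a b => by
    have h1 := abs_h_sub h hc (0, a) (P.jt (0, b))
    rw [jt_snd, d20_snd, norm_snd_pair, norm_snd_pair] at h1
    have h2 := abs_dBeta_rem h hc (0, a) (0, b)
    rw [norm_snd_pair, norm_snd_pair] at h2
    have e : P.dBeta (0, a) (0, b) - 2 * ev P.K.g a (P.K.j *ᵥ b)
        = (P.h (0, a) (0, P.K.j *ᵥ b) - 2 * ev P.K.g a (P.K.j *ᵥ b))
          + P.a (P.jdx ((0 : Pt), a).1 *ᵥ ((0 : Pt), b).1, P.K.jd ((0 : Pt), a).2 *ᵥ ((0 : Pt), b).2) := by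
      rw [PairData.dBeta, jt_snd]; ring
    rw [e]
    refine (abs_add_le _ _).trans ((add_le_add (h1.trans (mul_le_mul_of_nonneg_left (h.jbd b)
      (by positivity))) h2).trans ?_)
    have hX : 0 ≤ r * ‖a‖ * ‖b‖ := by positivity
    have hp : (1 + C) ^ 3 ≤ (1 + C) ^ 6 := pow_le_pow_right₀ (by linarith) (by norm_num)
    nlinarith [mul_le_mul_of_nonneg_right
      (show 25 * (1 + C) ^ 2 * C + 10 * (1 + C) ^ 6 ≤ 35 * (1 + C) ^ 6 by
        nlinarith [mul_nonneg (sq_nonneg (1 + C)) hC]) hX]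
  have e : P.curl (0, u) (0, v) - (2 * ev P.K.g u (P.K.j *ᵥ v) - 2 * ev P.K.g v (P.K.j *ᵥ u))
      = (P.dBeta (0, u) (0, v) - 2 * ev P.K.g u (P.K.j *ᵥ v))
        - (P.dBeta (0, v) (0, u) - 2 * ev P.K.g v (P.K.j *ᵥ u)) := by
    rw [PairData.curl]; ring
  rw [e]
  refine (abs_sub _ _).trans ((add_le_add (hd u v) (hd v u)).trans_eq ?_)
  ring

/-- Anti-invariant part on the second factor. -/
theorem dd_anti (h : P.Expansion w r c C) (hc : 0 < c) (hp : P.s ≠ 0 ∨ 0 < r) (u v : Pt) :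
    |P.dd (0, P.K.j *ᵥ u) (0, P.K.j *ᵥ v) - P.dd (0, u) (0, v)|
      ≤ 140 * (1 + C) ^ 8 / c * ‖u‖ * ‖v‖ / rr P r := by
  have hC := (Expansion.jetBd h hc).Cnonneg
  have hr := h.rnonneg
  set Q := P.q + P.s ^ 2 with hQ
  have hrr := rr_pos (P := P) (r := r) hp
  have k := curl_snd h hc u v
  have k' := curl_snd h hc (P.K.j *ᵥ u) (P.K.j *ᵥ v)
  rw [jj, jj, ev_neg_right, ev_neg_right, P.K.symm (P.K.j *ᵥ u) v, P.K.symm (P.K.j *ᵥ v) u] at k'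
  have hm : ∀ x : Pt, P.a (0, -x) = -P.a (0, x) := fun x => by
    rw [show ((0 : Pt), -x) = -((0 : Pt), x) by simp, map_neg]
  have e : P.dd (0, P.K.j *ᵥ u) (0, P.K.j *ᵥ v) - P.dd (0, u) (0, v)
      = -(P.curl (0, P.K.j *ᵥ u) (0, P.K.j *ᵥ v) - P.curl (0, u) (0, v)) / 2 / Q := by
    simp only [PairData.dd, ← hQ, jt_snd, jj, hm]; ring
  rw [e]
  have hn : ‖P.K.j *ᵥ u‖ * ‖P.K.j *ᵥ v‖ ≤ C ^ 2 * (‖u‖ * ‖v‖) :=
    (mul_le_mul (h.jbd u) (h.jbd v) (norm_nonneg _) (by positivity)).trans_eq (by ring)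
  have hx : |-(P.curl (0, P.K.j *ᵥ u) (0, P.K.j *ᵥ v) - P.curl (0, u) (0, v)) / 2|
      ≤ 140 * (1 + C) ^ 8 * r * ‖u‖ * ‖v‖ := by
    rw [abs_div, abs_neg, abs_two, div_le_iff₀ two_pos]
    have hX : 0 ≤ r * (‖u‖ * ‖v‖) := by positivity
    have hk : 70 * (1 + C) ^ 6 * C ^ 2 + 70 * (1 + C) ^ 6 ≤ 140 * (1 + C) ^ 8 * 2 := by
      nlinarith [mul_le_mul_of_nonneg_left (show C ^ 2 ≤ (1 + C) ^ 2 by nlinarith) (pow_nonneg (by linarith : 0 ≤ 1 + C) 6),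
        pow_le_pow_right₀ (show 1 ≤ 1 + C by linarith) (show 6 ≤ 8 by norm_num),
        pow_nonneg (by linarith : 0 ≤ 1 + C) 8]
    have k2 : 70 * (1 + C) ^ 6 * r * (‖P.K.j *ᵥ u‖ * ‖P.K.j *ᵥ v‖)
        ≤ 70 * (1 + C) ^ 6 * r * (C ^ 2 * (‖u‖ * ‖v‖)) := mul_le_mul_of_nonneg_left hn (by positivity)
    obtain ⟨k1, k1'⟩ := abs_le.1 k
    obtain ⟨k3, k3'⟩ := abs_le.1 k'
    refine abs_le.2 ⟨?_, ?_⟩ <;> nlinarith [mul_le_mul_of_nonneg_right hk hX]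
  refine (div_le_rr h hc hp hx).trans ?_
  rw [div_div, div_le_div_iff₀ (by positivity) hrr]
  have := le_rr P hr
  have hX : 0 ≤ 140 * (1 + C) ^ 8 * ‖u‖ * ‖v‖ := by positivity
  field_simp
  nlinarith [mul_le_mul_of_nonneg_left this (mul_nonneg (norm_nonneg u) (norm_nonneg v))]

theorem a_snd (h : P.Expansion w r c C) (hc : 0 < c) {D : ℝ} (hD : D = 1 + C) {u : Pt}
    (hu : ‖u‖ ≤ D) : |P.a (0, u) + 2 * ev P.K.g w u| ≤ 5 * D ^ 5 * r ^ 2 ∧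
      |2 * ev P.K.g w u| ≤ 2 * D ^ 3 * r := by
  have hb := Expansion.jetBd h hc
  have hC := hb.Cnonneg
  have hr := h.rnonneg
  have hD1 : 1 ≤ D := by linarith
  have hD0 : 0 ≤ D := by linarith
  constructor
  · have h1 := h.aexp (0, u)
    have h2 := abs_d12 hb w (conv ((0 : Pt), u))
    have h3 : d11 P.K w (conv (0, u)) = -(2 * ev P.K.g w u) := by
      simp [d11, conv, ev_neg_right]
    rw [h3, norm_snd_pair] at h1
    have h4 : 2 * C * ‖w‖ ^ 2 * ‖conv ((0 : Pt), u)‖ ≤ 4 * D ^ 4 * r ^ 2 := by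
      calc 2 * C * ‖w‖ ^ 2 * ‖conv ((0 : Pt), u)‖ ≤ 2 * D * (D * r) ^ 2 * (2 * D) := by
            gcongr
            · linarith
            · exact h.wle.trans (by gcongr; linarith)
            · exact (norm_conv _).trans (by rw [norm_snd_pair]; linarith)
        _ = _ := by ring
    have h5 : C * r ^ 3 * ‖u‖ ≤ D ^ 3 * r ^ 2 := by
      calc C * r ^ 3 * ‖u‖ = C * r * ‖u‖ * r ^ 2 := by ring
        _ ≤ D * D * D * r ^ 2 := by gcongr <;> linarith [h.rle]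
        _ = _ := by ring
    have hX := sq_nonneg r
    have p5 : 4 * D ^ 4 + D ^ 3 ≤ 5 * D ^ 5 := by
      linarith [pow_le_pow_right₀ hD1 (show 3 ≤ 5 by norm_num), pow_le_pow_right₀ hD1 (show 4 ≤ 5 by norm_num)]
    obtain ⟨a1, a2⟩ := abs_le.1 h1
    obtain ⟨b1, b2⟩ := abs_le.1 h2
    refine abs_le.2 ⟨?_, ?_⟩ <;> nlinarith [mul_le_mul_of_nonneg_right p5 hX]
  · rw [abs_mul, abs_two]
    have := hb.gbd w u
    calc 2 * |ev P.K.g w u| ≤ 2 * (D * (D * r) * D) := by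
          gcongr
          refine this.trans ?_
          gcongr
          · linarith
          · exact h.wle.trans (by gcongr; linarith)
      _ = _ := by ring

theorem a_snd_sq (h : P.Expansion w r c C) (hc : 0 < c) {D : ℝ} (hD : D = 1 + C) {u : Pt}
    (hu : ‖u‖ ≤ D) : |P.a (0, u) ^ 2 - 4 * ev P.K.g w u ^ 2| ≤ 45 * D ^ 11 * r ^ 3 := by
  have hC := (Expansion.jetBd h hc).Cnonneg
  have hr := h.rnonneg
  have hD1 : 1 ≤ D := by linarith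
  have hD0 : 0 ≤ D := by linarith
  obtain ⟨h1, h2⟩ := a_snd h hc hD hu
  rw [show P.a (0, u) ^ 2 - 4 * ev P.K.g w u ^ 2
    = (P.a (0, u) + 2 * ev P.K.g w u) * ((P.a (0, u) + 2 * ev P.K.g w u) - 2 * (2 * ev P.K.g w u)) by ring,
    abs_mul]
  have h3 : |2 * (2 * ev P.K.g w u)| ≤ 2 * (2 * D ^ 3 * r) := by
    rw [abs_mul, abs_two]; linarith
  refine (mul_le_mul h1 ((abs_sub _ _).trans (add_le_add h1 h3))
    (abs_nonneg _) (by positivity)).trans ?_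
  calc 5 * D ^ 5 * r ^ 2 * (5 * D ^ 5 * r ^ 2 + 2 * (2 * D ^ 3 * r))
      = 25 * D ^ 10 * (r * r ^ 3) + 20 * D ^ 8 * r ^ 3 := by ring
    _ ≤ 25 * D ^ 10 * (D * r ^ 3) + 20 * D ^ 11 * r ^ 3 := by
        gcongr
        · linarith [h.rle]
        · norm_num
    _ = _ := by ring

theorem line_sum_le (hc : 0 < c) {D R : ℝ} (hD1 : 1 ≤ D) (hr : 0 ≤ r) (hR : r ≤ R) (hR0 : 0 < R) :
    35 * D ^ 8 * r / c / R ^ 2 + 47 * D ^ 11 * r ^ 3 / c / R ^ 2 / c / R ^ 2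
      ≤ 500 * D ^ 12 * (1 / c + 1 / c ^ 2) / R := by
  have hD0 : 0 ≤ D := by linarith
  have q1 : r / R ^ 2 ≤ 1 / R := by
    rw [div_le_div_iff₀ (by positivity) hR0]; nlinarith [hR]
  have q2 : r ^ 3 / R ^ 4 ≤ 1 / R := by
    rw [div_le_div_iff₀ (by positivity) hR0]
    nlinarith [mul_le_mul_of_nonneg_right (pow_le_pow_left₀ hr hR 3) hR0.le]
  have hD8 : 35 * D ^ 8 ≤ 500 * D ^ 12 := by
    nlinarith [pow_le_pow_right₀ hD1 (show 8 ≤ 12 by norm_num), pow_nonneg hD0 12]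
  have hD11 : 47 * D ^ 11 ≤ 500 * D ^ 12 := by
    nlinarith [pow_le_pow_right₀ hD1 (show 11 ≤ 12 by norm_num), pow_nonneg hD0 12]
  calc 35 * D ^ 8 * r / c / R ^ 2 + 47 * D ^ 11 * r ^ 3 / c / R ^ 2 / c / R ^ 2
      = 35 * D ^ 8 * (1 / c) * (r / R ^ 2) + 47 * D ^ 11 * (1 / c ^ 2) * (r ^ 3 / R ^ 4) := by field_simp
    _ ≤ 500 * D ^ 12 * (1 / c) * (1 / R) + 500 * D ^ 12 * (1 / c ^ 2) * (1 / R) := by gcongr
    _ = _ := by field_simp

/-- The leading part on a line. -/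
theorem dd_line (h : P.Expansion w r c C) (hc : 0 < c) (hp : P.s ≠ 0 ∨ 0 < r) {l : Pt}
    (hl : ‖l‖ ≤ 1) :
    |P.dd (0, l) (0, P.K.j *ᵥ l) - 2 * (offK P.K l w + P.s ^ 2 * ev P.K.g l l)
        / (P.q + P.s ^ 2) ^ 2| ≤ 500 * (1 + C) ^ 12 * (1 / c + 1 / c ^ 2) / rr P r := by
  have hb := Expansion.jetBd h hc
  have hC := hb.Cnonneg
  have hr := h.rnonneg
  set Q := P.q + P.s ^ 2 with hQdef
  set D := 1 + C with hD
  have hD1 : 1 ≤ D := by linarith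
  have hD0 : 0 ≤ D := by linarith
  have hQ : 0 < Q := lt_of_lt_of_le (mul_pos hc (pow_pos (rr_pos hp) 2)) (by rw [rr_sq]; exact h.qlow)
  set L := ev P.K.g l l with hL
  set Jl := P.K.j *ᵥ l with hJl
  have hjl : ‖Jl‖ ≤ D := (h.jbd l).trans (by nlinarith [norm_nonneg l])
  have hll : ‖l‖ ≤ D := hl.trans hD1
  have k := curl_snd h hc l Jl
  rw [hJl, jj, ev_neg_right, P.K.herm, ← hJl, ← hL] at k
  have hk : |P.curl (0, l) (0, Jl) + 4 * L| ≤ 70 * D ^ 8 * r := by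
    rw [show P.curl (0, l) (0, Jl) + 4 * L = P.curl (0, l) (0, Jl) - (2 * -L - 2 * L) by ring]
    refine k.trans ?_
    calc 70 * D ^ 6 * r * ‖l‖ * ‖Jl‖ ≤ 70 * D ^ 6 * r * D * D := by gcongr
      _ = _ := by ring
  have hLb : |L| ≤ D ^ 3 := (hb.gbd l l).trans (by
    calc C * ‖l‖ * ‖l‖ ≤ D * D * D := by gcongr; linarith
      _ = _ := by ring)
  have hm : P.a (0, -l) = -P.a (0, l) := by
    rw [show ((0 : Pt), -l) = -((0 : Pt), l) by simp, map_neg]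
  have e : P.dd (0, l) (0, Jl) - 2 * (offK P.K l w + P.s ^ 2 * L) / Q ^ 2
      = -((P.curl (0, l) (0, Jl) + 4 * L) / 2) / Q
        + (2 * L * (P.q - ev P.K.g w w)
          - ((P.a (0, l) ^ 2 - 4 * ev P.K.g w l ^ 2) + (P.a (0, Jl) ^ 2 - 4 * ev P.K.g w Jl ^ 2)) / 2)
          / Q / Q := by
    simp only [PairData.dd, ← hQdef, jt_snd, hJl, jj, hm, offK]
    rw [← hJl, ← hL, show P.q = Q - P.s ^ 2 by rw [hQdef]; ring]
    field_simp
    ring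
  rw [e]
  have n1 : |-((P.curl (0, l) (0, Jl) + 4 * L) / 2)| ≤ 35 * D ^ 8 * r := by
    rw [abs_neg, abs_div, abs_two]; linarith only [hk]
  have n2 : |2 * L * (P.q - ev P.K.g w w)
      - ((P.a (0, l) ^ 2 - 4 * ev P.K.g w l ^ 2) + (P.a (0, Jl) ^ 2 - 4 * ev P.K.g w Jl ^ 2)) / 2|
      ≤ 47 * D ^ 11 * r ^ 3 := by
    refine (abs_sub _ _).trans ?_
    have t1 : |2 * L * (P.q - ev P.K.g w w)| ≤ 2 * D ^ 11 * r ^ 3 := by
      rw [abs_mul, abs_mul, abs_two]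
      calc 2 * |L| * |P.q - ev P.K.g w w| ≤ 2 * D ^ 3 * (D * r ^ 3) := by
            gcongr; exact h.qw.trans (by gcongr; linarith)
        _ = 2 * D ^ 4 * r ^ 3 := by ring
        _ ≤ _ := by gcongr; norm_num
    have t2 := (abs_add_le _ _).trans (add_le_add (a_snd_sq h hc hD hll) (a_snd_sq h hc hD hjl))
    rw [abs_div, abs_two]
    linarith only [t1, t2]
  refine (abs_add_le _ _).trans ((add_le_add (div_le_rr h hc hp n1)
    (div_le_rr h hc hp (div_le_rr h hc hp n2))).trans ?_)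
  exact line_sum_le hc hD1 hr (le_rr P hr) (rr_pos hp)

end Vale.Agent.P204.Core
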