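import Mathlib
import Vale.Agent.P204.Core.TestLine

/-!
# P204 core: the curl on the three test vectors
-/

open Matrix

namespace Vale.Agent.P204.Core

open Vale.Agent.P204.Torus

variable {P : PairData} {w : Pt} {r c C : ℝ}

theorem conv_fst (v : Pt) : conv (v, 0) = vecA v := by simp [conv, vecA]

theorem conv_snd (v : Pt) : conv (0, v) = vecB v := by simp [conv, vecB]

theorem jt_fst (P : PairData) (v : Pt) : P.jt (v, 0) = (P.jx *ᵥ v, 0) := by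
  simp [PairData.jt]

theorem vecA_add (u v : Pt) : vecA (u + v) = vecA u + vecA v := by
  simp [vecA, smul_add]

theorem vecB_neg (v : Pt) : vecB (-v) = -vecB v := by simp [vecB, smul_neg]

theorem d20_add_right (K : Jet) (a b b' : Pt × Pt) : d20 K a (b + b') = d20 K a b + d20 K a b' := by
  simp [d20, ev_add_right]; ring

theorem d21_add_right (K : Jet) (w : Pt) (a b b' : Pt × Pt) :
    d21 K w a (b + b') = d21 K w a b + d21 K w a b' := by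
  simp [d21, map_add, ev_add_left, ev_add_right, ev_add_mat]; ring

theorem d20_neg_right (K : Jet) (a b : Pt × Pt) : d20 K a (-b) = -d20 K a b := by
  simp [d20, ev_neg_right]

theorem d21_neg_right (K : Jet) (w : Pt) (a b : Pt × Pt) : d21 K w a (-b) = -d21 K w a b := by
  simp [d21, map_neg, ev_neg_right, ev_neg_mat]; ring

/-- A bound on a product of two expansions. -/
theorem prod_exp {a b A1 A2 B0 B1 k r : ℝ} (hr : 0 ≤ r) (ha : |a - (A1 + A2)| ≤ k * r ^ 3)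
    (hb : |b - (B0 + B1)| ≤ k * r ^ 2) (hb' : |b| ≤ k) (hA : |A1 + A2| ≤ k * r)
    (hA2 : |A2| ≤ k * r ^ 2) (hB1 : |B1| ≤ k * r) :
    |a * b - (A1 * B0 + (A1 * B1 + A2 * B0))| ≤ 3 * k ^ 2 * r ^ 3 := by
  have hk : 0 ≤ k := (abs_nonneg _).trans hb'
  have e : a * b - (A1 * B0 + (A1 * B1 + A2 * B0))
      = (a - (A1 + A2)) * b + (A1 + A2) * (b - (B0 + B1)) + A2 * B1 := by ring
  rw [e]
  refine (abs_add_three _ _ _).trans ?_
  rw [abs_mul, abs_mul, abs_mul]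
  have t1 := mul_le_mul ha hb' (abs_nonneg _) (by positivity)
  have t2 := mul_le_mul hA hb (abs_nonneg _) (by positivity)
  have t3 := mul_le_mul hA2 hB1 (abs_nonneg _) (by positivity)
  linarith

theorem a_sub (h : P.Expansion w r c C) (hc : 0 < c) (V : Pt × Pt) :
    |P.a V - d11 P.K w (conv V)| ≤ 9 * (1 + C) ^ 3 * r ^ 2 * ‖V‖ := by
  have hb := Expansion.jetBd h hc
  have hC := hb.Cnonneg
  have hr := h.rnonneg
  have h2 : |d12 P.K w (conv V)| ≤ 4 * C ^ 3 * r ^ 2 * ‖V‖ := (abs_d12 hb _ _).trans (by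
    calc 2 * C * ‖w‖ ^ 2 * ‖conv V‖ ≤ 2 * C * (C * r) ^ 2 * (2 * ‖V‖) := by
          gcongr; exacts [h.wle, norm_conv V]
      _ = _ := by ring)
  have h1 := (h.aexp V).trans (show C * r ^ 3 * ‖V‖ ≤ C ^ 2 * r ^ 2 * ‖V‖ by
    calc C * r ^ 3 * ‖V‖ = C * r * r ^ 2 * ‖V‖ := by ring
      _ ≤ C * C * r ^ 2 * ‖V‖ := by gcongr; exact h.rle
      _ = _ := by ring)
  have hX : 0 ≤ r ^ 2 * ‖V‖ := by positivity
  have p : 4 * C ^ 3 + C ^ 2 ≤ 9 * (1 + C) ^ 3 := by nlinarith [pow_nonneg hC 3]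
  obtain ⟨a1, a2⟩ := abs_le.1 h1
  obtain ⟨b1, b2⟩ := abs_le.1 h2
  refine abs_le.2 ⟨?_, ?_⟩ <;> nlinarith [mul_le_mul_of_nonneg_right p hX]

/-- The Hessian between a vector of the second factor and the rotated first vector. -/
theorem h_mixed (h : P.Expansion w r c C) (hc : 0 < c) {v x : Pt} (hv : ‖v‖ ≤ 1) :
    |P.h (0, x) (P.jt (v, 0)) - (d20 P.K (vecB x) (vecA (P.K.j *ᵥ v))
        + d21 P.K w (vecB x) (vecA (P.K.j *ᵥ v)) + d20 P.K (vecB x) (vecA (P.K.jd w *ᵥ v)))|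
      ≤ 20 * (1 + C) ^ 6 * r ^ 2 * ‖x‖ := by
  have hb := Expansion.jetBd h hc
  have hC := hb.Cnonneg
  have hr := h.rnonneg
  set D := 1 + C
  have hD : C ≤ D := le_add_of_nonneg_left zero_le_one
  have hD1 : 1 ≤ D := le_add_of_nonneg_right hC
  have hD0 : 0 ≤ D := zero_le_one.trans hD1
  set err := P.jx *ᵥ v - P.K.j *ᵥ v - P.K.jd w *ᵥ v with herr
  have hs : P.jx *ᵥ v = P.K.j *ᵥ v + P.K.jd w *ᵥ v + err := by rw [herr]; abel
  have he : ‖vecA err‖ ≤ D * r ^ 2 := (norm_vecA _).trans ((h.jexp v).trans (by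
    calc C * r ^ 2 * ‖v‖ ≤ D * r ^ 2 * 1 := by gcongr
      _ = _ := mul_one _))
  have hf : ‖vecA (P.K.jd w *ᵥ v)‖ ≤ D ^ 2 * r := (norm_vecA _).trans ((h.jdbd w v).trans (by
    calc C * ‖w‖ * ‖v‖ ≤ D * (D * r) * 1 := by gcongr; exact h.wle.trans (by gcongr)
      _ = _ := by ring))
  have hx : ‖vecB x‖ ≤ ‖x‖ := norm_vecB x
  have hw : ‖w‖ ≤ D * r := h.wle.trans (by gcongr)
  have t0 := (h.hexp (0, x) (P.jx *ᵥ v, 0))
  have e1 : |d21 P.K w (vecB x) (vecA (P.K.jd w *ᵥ v))| ≤ 5 * D ^ 4 * r ^ 2 * ‖x‖ :=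
    (abs_d21 hb _ _ _).trans (by
      calc 5 * C * ‖w‖ * ‖vecB x‖ * ‖vecA (P.K.jd w *ᵥ v)‖ ≤ 5 * D * (D * r) * ‖x‖ * (D ^ 2 * r) := by gcongr
        _ = _ := by ring)
  have e2 : |d20 P.K (vecB x) (vecA err)| ≤ 2 * D ^ 2 * r ^ 2 * ‖x‖ := (abs_d20 hb _ _).trans (by
    calc 2 * C * ‖vecB x‖ * ‖vecA err‖ ≤ 2 * D * ‖x‖ * (D * r ^ 2) := by gcongr
      _ = _ := by ring)
  have e3 : |d21 P.K w (vecB x) (vecA err)| ≤ 5 * D ^ 4 * r ^ 2 * ‖x‖ := (abs_d21 hb _ _ _).trans (by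
    calc 5 * C * ‖w‖ * ‖vecB x‖ * ‖vecA err‖ ≤ 5 * D * (D * C) * ‖x‖ * (D * r ^ 2) := by
          gcongr; exact hw.trans (by gcongr; exact h.rle)
      _ ≤ 5 * D * (D * D) * ‖x‖ * (D * r ^ 2) := by gcongr
      _ = _ := by ring)
  have e4 : C * r ^ 2 * ‖((0 : Pt), x)‖ * ‖(P.jx *ᵥ v, (0 : Pt))‖ ≤ 4 * D ^ 6 * r ^ 2 * ‖x‖ := by
    rw [norm_snd_pair, ← jt_fst]
    calc C * r ^ 2 * ‖x‖ * ‖P.jt (v, 0)‖ ≤ D * r ^ 2 * ‖x‖ * (4 * D ^ 5) := by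
          gcongr
          refine (abs_jt h hC _).trans ?_
          rw [norm_fst_pair]
          calc (C + 2 * C ^ 3) * ‖v‖ ≤ (D + 2 * D ^ 3) * 1 := by gcongr
            _ ≤ (D ^ 5 + 2 * D ^ 5) * 1 := by
                gcongr
                · exact le_self_pow₀ hD1 (by norm_num)
                · norm_num
            _ ≤ _ := by linarith [pow_nonneg hD0 5]
      _ = _ := by ring
  rw [conv_fst, conv_snd, hs, vecA_add, vecA_add, d20_add_right, d20_add_right, d21_add_right,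
    d21_add_right, ← hs] at t0
  rw [jt_fst]
  have hX : 0 ≤ r ^ 2 * ‖x‖ := by positivity
  have p : 4 * D ^ 6 + 5 * D ^ 4 + 2 * D ^ 2 + 5 * D ^ 4 ≤ 20 * D ^ 6 := by
    linarith [pow_le_pow_right₀ hD1 (show 2 ≤ 6 by norm_num),
      pow_le_pow_right₀ hD1 (show 4 ≤ 6 by norm_num), pow_nonneg hD0 6]
  have q := mul_le_mul_of_nonneg_right p hX
  obtain ⟨a1, a2⟩ := abs_le.1 (t0.trans e4)
  obtain ⟨b1, b2⟩ := abs_le.1 e1
  obtain ⟨c1, c2⟩ := abs_le.1 e2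
  obtain ⟨d1, d2⟩ := abs_le.1 e3
  refine abs_le.2 ⟨?_, ?_⟩
  · nlinarith only [q, a1, b1, c1, d1]
  · nlinarith only [q, a2, b2, c2, d2]

theorem hexp' (h : P.Expansion w r c C) (hc : 0 < c) {U V : Pt × Pt} (hU : ‖U‖ ≤ 1 + C)
    (hV : ‖V‖ ≤ 1 + C) :
    |P.h U V - (d20 P.K (conv U) (conv V) + d21 P.K w (conv U) (conv V))| ≤ (1 + C) ^ 3 * r ^ 2 := by
  have hC := (Expansion.jetBd h hc).Cnonneg
  refine (h.hexp U V).trans ?_
  calc C * r ^ 2 * ‖U‖ * ‖V‖ ≤ (1 + C) * r ^ 2 * (1 + C) * (1 + C) := by gcongr; linarith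
    _ = _ := by ring

theorem curl_ll (h : P.Expansion w r c C) (hc : 0 < c) {l : Pt} (hl : ‖l‖ ≤ 1) :
    |P.curl (0, l) (0, P.K.j *ᵥ l) - ((-d20 P.K (vecB l) (vecB l)
        - d20 P.K (vecB (P.K.j *ᵥ l)) (vecB (P.K.j *ᵥ l)))
      + (-d21 P.K w (vecB l) (vecB l) - d21 P.K w (vecB (P.K.j *ᵥ l)) (vecB (P.K.j *ᵥ l))
        - 2 * ev P.K.g w (P.K.jd l *ᵥ (P.K.j *ᵥ l) - P.K.jd (P.K.j *ᵥ l) *ᵥ l)))|
      ≤ 25 * (1 + C) ^ 6 * r ^ 2 := by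
  have hb := Expansion.jetBd h hc
  have hC := hb.Cnonneg
  set D := 1 + C
  have hD : C ≤ D := le_add_of_nonneg_left zero_le_one
  have hD1 : 1 ≤ D := le_add_of_nonneg_right hC
  have hD0 : 0 ≤ D := zero_le_one.trans hD1
  set Jl := P.K.j *ᵥ l with hJl
  have hjl : ‖Jl‖ ≤ D := (h.jbd l).trans (by nlinarith [norm_nonneg l])
  set X := P.K.jd l *ᵥ Jl - P.K.jd Jl *ᵥ l with hX
  have e : P.curl (0, l) (0, Jl) = -P.h (0, l) (0, l) - P.h (0, Jl) (0, Jl) + P.a (0, X) := by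
    have h1 : ((0 : Pt), -l) = -((0 : Pt), l) := by simp
    have h2 : ((0 : Pt), X) = (0, P.K.jd l *ᵥ Jl) - (0, P.K.jd Jl *ᵥ l) := by simp [hX]
    rw [h2, map_sub]
    simp only [PairData.curl, PairData.dBeta, jt_snd, hJl, jj]
    rw [h1, map_neg]
    simp only [mulVec_zero, map_zero, zero_mulVec]
    ring
  have t1 := hexp' h hc (U := (0, l)) (V := (0, l)) (by rw [norm_snd_pair]; linarith)
    (by rw [norm_snd_pair]; linarith)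
  have t2 := hexp' h hc (U := (0, Jl)) (V := (0, Jl)) (by rw [norm_snd_pair]; exact hjl)
    (by rw [norm_snd_pair]; exact hjl)
  have t3 := a_sub h hc (0, X)
  have hXn : ‖X‖ ≤ 2 * D ^ 2 := by
    refine (norm_sub_le _ _).trans ((add_le_add (h.jdbd _ _) (h.jdbd _ _)).trans ?_)
    calc C * ‖l‖ * ‖Jl‖ + C * ‖Jl‖ * ‖l‖ ≤ D * 1 * D + D * D * 1 := by gcongr
      _ = _ := by ring
  rw [norm_snd_pair] at t3
  have t3' := t3.trans (show 9 * D ^ 3 * r ^ 2 * ‖X‖ ≤ 18 * D ^ 6 * r ^ 2 by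
    calc 9 * D ^ 3 * r ^ 2 * ‖X‖ ≤ 9 * D ^ 3 * r ^ 2 * (2 * D ^ 2) := by
          have := h.rnonneg; gcongr
      _ = 18 * D ^ 5 * r ^ 2 := by ring
      _ ≤ _ := by gcongr; norm_num)
  rw [conv_snd] at t1 t2
  rw [show d11 P.K w (conv (0, X)) = -(2 * ev P.K.g w X) by simp [d11, conv, ev_neg_right]] at t3'
  rw [e]
  have p : 2 * D ^ 3 + 18 * D ^ 6 ≤ 25 * D ^ 6 := by
    linarith [pow_le_pow_right₀ hD1 (show 3 ≤ 6 by norm_num), pow_nonneg hD0 6]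
  have q := mul_le_mul_of_nonneg_right p (sq_nonneg r)
  obtain ⟨a1, a2⟩ := abs_le.1 t1
  obtain ⟨b1, b2⟩ := abs_le.1 t2
  obtain ⟨c1, c2⟩ := abs_le.1 t3'
  refine abs_le.2 ⟨?_, ?_⟩
  · nlinarith only [q, a2, b2, c1]
  · nlinarith only [q, a1, b1, c2]

theorem curl_lv (h : P.Expansion w r c C) (hc : 0 < c) {v l : Pt} (hv : ‖v‖ ≤ 1) (hl : ‖l‖ ≤ 1) :
    |P.curl (0, P.K.j *ᵥ l) (v, 0)
      - ((d20 P.K (vecB (P.K.j *ᵥ l)) (vecA (P.K.j *ᵥ v)) + d20 P.K (vecA v) (vecB l))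
        + (d21 P.K w (vecB (P.K.j *ᵥ l)) (vecA (P.K.j *ᵥ v))
          + d20 P.K (vecB (P.K.j *ᵥ l)) (vecA (P.K.jd w *ᵥ v)) + d21 P.K w (vecA v) (vecB l)))|
      ≤ 25 * (1 + C) ^ 7 * r ^ 2 ∧
    |P.curl (v, 0) (0, l)
      - ((d20 P.K (vecA v) (vecB (P.K.j *ᵥ l)) - d20 P.K (vecB l) (vecA (P.K.j *ᵥ v)))
        + (d21 P.K w (vecA v) (vecB (P.K.j *ᵥ l)) - d21 P.K w (vecB l) (vecA (P.K.j *ᵥ v))
          - d20 P.K (vecB l) (vecA (P.K.jd w *ᵥ v))))|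
      ≤ 25 * (1 + C) ^ 7 * r ^ 2 := by
  have hb := Expansion.jetBd h hc
  have hC := hb.Cnonneg
  set D := 1 + C
  have hD : C ≤ D := le_add_of_nonneg_left zero_le_one
  have hD1 : 1 ≤ D := le_add_of_nonneg_right hC
  have hD0 : 0 ≤ D := zero_le_one.trans hD1
  set Jl := P.K.j *ᵥ l with hJl
  have hjl : ‖Jl‖ ≤ D := (h.jbd l).trans (by nlinarith [norm_nonneg l])
  have h1 : ((0 : Pt), -l) = -((0 : Pt), l) := by simp
  have e31 : P.curl (0, Jl) (v, 0) = P.h (0, Jl) (P.jt (v, 0)) + P.h (v, 0) (0, l) := by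
    simp only [PairData.curl, PairData.dBeta, jt_snd, hJl, jj]
    rw [h1, map_neg]
    simp [← Prod.zero_eq_mk]
  have e12 : P.curl (v, 0) (0, l) = P.h (v, 0) (0, Jl) - P.h (0, l) (P.jt (v, 0)) := by
    simp only [PairData.curl, PairData.dBeta, jt_snd, ← hJl]
    simp [← Prod.zero_eq_mk]
  have hr2 : 0 ≤ r ^ 2 := sq_nonneg r
  have m1 := (h_mixed h hc (x := Jl) hv).trans (show 20 * D ^ 6 * r ^ 2 * ‖Jl‖ ≤ 20 * D ^ 7 * r ^ 2 by
    calc 20 * D ^ 6 * r ^ 2 * ‖Jl‖ ≤ 20 * D ^ 6 * r ^ 2 * D := by gcongr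
      _ = _ := by ring)
  have m2 := (h_mixed h hc (x := l) hv).trans (show 20 * D ^ 6 * r ^ 2 * ‖l‖ ≤ 20 * D ^ 7 * r ^ 2 by
    calc 20 * D ^ 6 * r ^ 2 * ‖l‖ ≤ 20 * D ^ 6 * r ^ 2 * D := by gcongr; exact hl.trans hD1
      _ = _ := by ring)
  have t1 := hexp' h hc (U := (v, 0)) (V := (0, l)) (by rw [norm_fst_pair]; linarith)
    (by rw [norm_snd_pair]; linarith)
  have t2 := hexp' h hc (U := (v, 0)) (V := (0, Jl)) (by rw [norm_fst_pair]; linarith)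
    (by rw [norm_snd_pair]; exact hjl)
  rw [conv_fst, conv_snd] at t1 t2
  have p : D ^ 3 + 20 * D ^ 7 ≤ 25 * D ^ 7 := by
    linarith [pow_le_pow_right₀ hD1 (show 3 ≤ 7 by norm_num), pow_nonneg hD0 7]
  have q := mul_le_mul_of_nonneg_right p hr2
  rw [e31, e12]
  obtain ⟨a1, a2⟩ := abs_le.1 t1
  obtain ⟨b1, b2⟩ := abs_le.1 t2
  obtain ⟨c1, c2⟩ := abs_le.1 m1
  obtain ⟨d1, d2⟩ := abs_le.1 m2
  refine ⟨abs_le.2 ⟨?_, ?_⟩, abs_le.2 ⟨?_, ?_⟩⟩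
  · nlinarith only [q, a1, c1]
  · nlinarith only [q, a2, c2]
  · nlinarith only [q, b1, d2]
  · nlinarith only [q, b2, d1]

end Vale.Agent.P204.Core
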