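import Mathlib
import Vale.Agent.P204.Core.TestCurl

/-!
# P204 core: the key bound on `du ∧ dJdu`
-/

open Matrix

namespace Vale.Agent.P204.Core

open Vale.Agent.P204.Torus

variable {P : PairData} {K : Jet} {w : Pt} {r c C : ℝ}

/-- Leading part. -/
theorem lead_eq (K : Jet) (w v l : Pt) :
    d11 K w (vecA v) * (-d20 K (vecB l) (vecB l) - d20 K (vecB (K.j *ᵥ l)) (vecB (K.j *ᵥ l)))
      + d11 K w (vecB l) * (d20 K (vecB (K.j *ᵥ l)) (vecA (K.j *ᵥ v)) + d20 K (vecA v) (vecB l))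
      + d11 K w (vecB (K.j *ᵥ l)) * (d20 K (vecA v) (vecB (K.j *ᵥ l))
          - d20 K (vecB l) (vecA (K.j *ᵥ v)))
      = -8 * lead K w v l := by
  simp only [d11, d20, vecA, vecB, lead, ev_neg_left, ev_neg_right, K.herm]
  rw [K.symm l (K.j *ᵥ v), g_jr K v l, K.symm l v]
  ring

theorem abs_d12' (hb : JetBd K c C) (hw : ‖w‖ ≤ (1 + C) * r) {a : Pt × Pt} (ha : ‖a‖ ≤ 1 + C)
    {D : ℝ} (hD : D = 1 + C) : |d12 K w a| ≤ 2 * D ^ 4 * r ^ 2 := by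
  have hC := hb.Cnonneg
  subst hD
  refine (abs_d12 hb w a).trans ?_
  calc 2 * C * ‖w‖ ^ 2 * ‖a‖ ≤ 2 * (1 + C) * ((1 + C) * r) ^ 2 * (1 + C) := by gcongr; linarith
    _ = _ := by ring

theorem abs_b1 (hb : JetBd K c C) (hw : ‖w‖ ≤ (1 + C) * r) (hr : 0 ≤ r) {v l : Pt} (hv : ‖v‖ ≤ 1)
    (hl : ‖l‖ ≤ 1) {D : ℝ} (hD : D = 1 + C) :
    |(-d21 K w (vecB l) (vecB l) - d21 K w (vecB (K.j *ᵥ l)) (vecB (K.j *ᵥ l))
        - 2 * ev K.g w (K.jd l *ᵥ (K.j *ᵥ l) - K.jd (K.j *ᵥ l) *ᵥ l))| ≤ 14 * D ^ 4 * r ∧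
    |d21 K w (vecB (K.j *ᵥ l)) (vecA (K.j *ᵥ v)) + d20 K (vecB (K.j *ᵥ l)) (vecA (K.jd w *ᵥ v))
        + d21 K w (vecA v) (vecB l)| ≤ 14 * D ^ 4 * r ∧
    |d21 K w (vecA v) (vecB (K.j *ᵥ l)) - d21 K w (vecB l) (vecA (K.j *ᵥ v))
        - d20 K (vecB l) (vecA (K.jd w *ᵥ v))| ≤ 14 * D ^ 4 * r := by
  have hC := hb.Cnonneg
  have hCD : C ≤ D := by linarith
  have hD0 : 0 ≤ D := by linarith
  rw [← hD] at hw
  have hl' : ‖l‖ ≤ D := by linarith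
  have hv' : ‖v‖ ≤ D := by linarith
  have hjl : ‖K.j *ᵥ l‖ ≤ D := (hb.jbd l).trans (by nlinarith [norm_nonneg l])
  have hjv : ‖K.j *ᵥ v‖ ≤ D := (hb.jbd v).trans (by nlinarith [norm_nonneg v])
  have T : ∀ {a b : Pt × Pt}, ‖a‖ ≤ D → ‖b‖ ≤ D → |d21 K w a b| ≤ 5 * D ^ 4 * r := fun ha hb' =>
    (abs_d21 hb w _ _).trans ((mul_le_mul (mul_le_mul (mul_le_mul (by linarith : 5 * C ≤ 5 * D) hw
      (norm_nonneg _) (by linarith)) ha (norm_nonneg _) (by positivity)) hb' (norm_nonneg _)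
      (by positivity)).trans_eq (by ring))
  have nf : ‖vecA (K.jd w *ᵥ v)‖ ≤ D ^ 2 * r := (norm_vecA _).trans ((hb.jdbd w v).trans (by
    calc C * ‖w‖ * ‖v‖ ≤ D * (D * r) * 1 := by gcongr
      _ = _ := by ring))
  have U : ∀ {a : Pt × Pt}, ‖a‖ ≤ D → |d20 K a (vecA (K.jd w *ᵥ v))| ≤ 2 * D ^ 4 * r := fun ha =>
    (abs_d20 hb _ _).trans ((mul_le_mul (mul_le_mul (by linarith : 2 * C ≤ 2 * D) ha (norm_nonneg _)
      (by linarith)) nf (norm_nonneg _) (by positivity)).trans_eq (by ring))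
  have na := (norm_vecA v).trans hv'
  have nb := (norm_vecB l).trans hl'
  have nc := (norm_vecB (K.j *ᵥ l)).trans hjl
  have na' := (norm_vecA (K.j *ᵥ v)).trans hjv
  have hX : |2 * ev K.g w (K.jd l *ᵥ (K.j *ᵥ l) - K.jd (K.j *ᵥ l) *ᵥ l)| ≤ 4 * D ^ 4 * r := by
    rw [abs_mul, abs_two]
    have h1 : ‖K.jd l *ᵥ (K.j *ᵥ l) - K.jd (K.j *ᵥ l) *ᵥ l‖ ≤ 2 * D ^ 2 := by
      refine (norm_sub_le _ _).trans ((add_le_add (hb.jdbd _ _) (hb.jdbd _ _)).trans ?_)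
      calc C * ‖l‖ * ‖K.j *ᵥ l‖ + C * ‖K.j *ᵥ l‖ * ‖l‖ ≤ D * 1 * D + D * D * 1 := by gcongr
        _ = _ := by ring
    calc 2 * |ev K.g w _| ≤ 2 * (D * (D * r) * (2 * D ^ 2)) := by
          gcongr; exact (hb.gbd _ _).trans (by gcongr)
      _ = _ := by ring
  refine ⟨?_, ?_, ?_⟩
  · refine (abs_sub _ _).trans ((add_le_add ((abs_sub _ _).trans
      (add_le_add ((abs_neg _).trans_le (T nb nb)) (T nc nc))) hX).trans_eq ?_)
    ring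
  · refine (abs_add_three _ _ _).trans ((add_le_add (add_le_add (T nc na') (U nc)) (T na nb)).trans ?_)
    nlinarith [mul_nonneg (pow_nonneg hD0 4) hr]
  · refine (abs_sub _ _).trans ((add_le_add ((abs_sub _ _).trans (add_le_add (T na nc) (T nb na'))) (U nb)).trans ?_)
    nlinarith [mul_nonneg (pow_nonneg hD0 4) hr]

theorem num_expansion (h : P.Expansion w r c C) (hc : 0 < c) {v l : Pt} (hv : ‖v‖ ≤ 1)
    (hl : ‖l‖ ≤ 1) :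
    |(P.a (v, 0) * P.curl (0, l) (0, P.K.j *ᵥ l) + P.a (0, l) * P.curl (0, P.K.j *ᵥ l) (v, 0)
        + P.a (0, P.K.j *ᵥ l) * P.curl (v, 0) (0, l))
      - (-8 * lead P.K w v l + P2 P.K w v l)| ≤ 9 * (300 * (1 + C) ^ 9) ^ 2 * r ^ 3 := by
  have hb := Expansion.jetBd h hc
  have hC := hb.Cnonneg
  have hr := h.rnonneg
  set D := 1 + C with hD
  have hD1 : 1 ≤ D := le_add_of_nonneg_right hC
  have hD0 : 0 ≤ D := zero_le_one.trans hD1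
  set k := 300 * D ^ 9 with hk
  have pk : ∀ n : ℕ, n ≤ 9 → D ^ n ≤ D ^ 9 := fun n hn => pow_le_pow_right₀ hD1 hn
  have hw : ‖w‖ ≤ (1 + C) * r := h.wle.trans (mul_le_mul_of_nonneg_right (by linarith) hr)
  set Jl := P.K.j *ᵥ l with hJl
  have hjl : ‖Jl‖ ≤ D := (h.jbd l).trans (by nlinarith [norm_nonneg l])
  have A : ∀ V : Pt × Pt, ‖V‖ ≤ D →
      |P.a V - (d11 P.K w (conv V) + d12 P.K w (conv V))| ≤ k * r ^ 3
      ∧ |d11 P.K w (conv V) + d12 P.K w (conv V)| ≤ k * r := fun V hV => by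
    constructor
    · refine (h.aexp V).trans ?_
      calc C * r ^ 3 * ‖V‖ ≤ D * r ^ 3 * D := by gcongr; linarith
        _ = D ^ 2 * r ^ 3 := by ring
        _ ≤ k * r ^ 3 := by gcongr; linarith [pk 2 (by norm_num), pow_nonneg hD0 9]
    · have h1 := abs_a h hc V
      have h2 := h.aexp V
      have e : |d11 P.K w (conv V) + d12 P.K w (conv V)| ≤ 5 * D ^ 4 * r * ‖V‖ + C * r ^ 3 * ‖V‖ := by
        obtain ⟨a1, a2⟩ := abs_le.1 h1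
        obtain ⟨b1, b2⟩ := abs_le.1 h2
        exact abs_le.2 ⟨by linarith, by linarith⟩
      refine e.trans ?_
      calc 5 * D ^ 4 * r * ‖V‖ + C * r ^ 3 * ‖V‖ = (5 * D ^ 4 + C * r * r) * r * ‖V‖ := by ring
        _ ≤ (5 * D ^ 4 + D * D * D) * r * D := by gcongr <;> linarith [h.rle]
        _ = (5 * D ^ 5 + D ^ 4) * r := by ring
        _ ≤ k * r := by gcongr; linarith [pk 5 (by norm_num), pk 4 (by norm_num), pow_nonneg hD0 9]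
  obtain ⟨x1, x2, x3⟩ := abs_b1 hb hw hr hv hl hD
  have hB : ∀ {x : ℝ}, |x| ≤ 14 * D ^ 4 * r → |x| ≤ k * r := fun hx => hx.trans (by
    gcongr; linarith [pk 4 (by norm_num), pow_nonneg hD0 9])
  have hA2 : ∀ {a : Pt × Pt}, ‖a‖ ≤ D → |d12 P.K w a| ≤ k * r ^ 2 := fun ha =>
    (abs_d12' hb hw (hD ▸ ha) hD).trans (by
      gcongr; linarith [pk 4 (by norm_num), pow_nonneg hD0 9])
  have hcb : ∀ {U V : Pt × Pt}, ‖U‖ * ‖V‖ ≤ D * D → |P.curl U V| ≤ k := fun {U V} hUV =>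
    (abs_curl h hc U V).trans (by
      rw [mul_assoc]
      calc 300 * D ^ 7 * (‖U‖ * ‖V‖) ≤ 300 * D ^ 7 * (D * D) := by gcongr
        _ = _ := by rw [hk]; ring)
  have n1 : ‖(v, (0 : Pt))‖ ≤ D := (norm_fst_pair v).trans_le (hv.trans hD1)
  have n2 : ‖((0 : Pt), l)‖ ≤ D := (norm_snd_pair l).trans_le (hl.trans hD1)
  have n3 : ‖((0 : Pt), Jl)‖ ≤ D := (norm_snd_pair Jl).trans_le hjl
  obtain ⟨c31, c12⟩ := curl_lv h hc hv hl
  have c23 := curl_ll h hc hl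
  have k6 : 25 * (1 + C) ^ 6 * r ^ 2 ≤ k * r ^ 2 := by
    gcongr; linarith [pk 6 (by norm_num), pow_nonneg hD0 9]
  have k7 : 25 * (1 + C) ^ 7 * r ^ 2 ≤ k * r ^ 2 := by
    gcongr; linarith [pk 7 (by norm_num), pow_nonneg hD0 9]
  have T1 := prod_exp hr (conv_fst v ▸ (A _ n1).1) (c23.trans k6)
    (hcb (mul_le_mul n2 n3 (norm_nonneg _) hD0)) (conv_fst v ▸ (A _ n1).2)
    (hA2 ((norm_vecA v).trans (hv.trans hD1))) (hB x1)
  have T2 := prod_exp hr (conv_snd l ▸ (A _ n2).1) (c31.trans k7)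
    (hcb (mul_le_mul n3 n1 (norm_nonneg _) hD0)) (conv_snd l ▸ (A _ n2).2)
    (hA2 ((norm_vecB l).trans (hl.trans hD1))) (hB x2)
  have T3 := prod_exp hr (conv_snd Jl ▸ (A _ n3).1) (c12.trans k7)
    (hcb (mul_le_mul n1 n2 (norm_nonneg _) hD0)) (conv_snd Jl ▸ (A _ n3).2)
    (hA2 ((norm_vecB Jl).trans hjl)) (hB x3)
  have hP := lead_eq P.K w v l
  simp only [P2]
  rw [← hJl] at hP ⊢
  obtain ⟨a1, a2⟩ := abs_le.1 T1
  obtain ⟨b1, b2⟩ := abs_le.1 T2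
  obtain ⟨e1, e2⟩ := abs_le.1 T3
  refine abs_le.2 ⟨?_, ?_⟩
  · linarith only [a1, b1, e1, hP]
  · linarith only [a2, b2, e2, hP]

theorem dudd_key (hc : 0 < c) : ∃ B, ∀ (P : PairData) (w : Pt) (r : ℝ), P.s ≠ 0 ∨ 0 < r →
    P.Expansion w r c C → ∀ l v, c ≤ ‖l‖ → ‖l‖ ≤ 1 → ‖v‖ ≤ 1 →
    |P.dudd (v, 0) (0, l) (0, P.K.j *ᵥ l)| ≤
      B * (Real.sqrt (offK P.K l w) * Real.sqrt (offK P.K l v) / Real.sqrt (r ^ 2 + P.s ^ 2) ^ 4
        + Real.sqrt (offK P.K l w) / Real.sqrt (r ^ 2 + P.s ^ 2) ^ 3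
        + Real.sqrt (offK P.K l v) / Real.sqrt (r ^ 2 + P.s ^ 2) ^ 2
        + 1 / Real.sqrt (r ^ 2 + P.s ^ 2)) := by
  obtain ⟨B₂, hB₂, hP2⟩ := abs_P2_le (C := C) hc
  refine ⟨(8 + B₂ * (1 + |C|) ^ 2 + 9 * (300 * (1 + |C|) ^ 9) ^ 2) / (4 * c ^ 2),
    fun P w r hp h l v hl hl1 hv => ?_⟩
  have hb := Expansion.jetBd h hc
  have hC := hb.Cnonneg
  rw [abs_of_nonneg hC]
  set D := 1 + C
  have hr := h.rnonneg
  have hR := rr_pos (P := P) (r := r) hp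
  change |_| ≤ _ * (_ / rr P r ^ 4 + _ / rr P r ^ 3 + _ / rr P r ^ 2 + 1 / rr P r)
  set R := rr P r
  have hrR : r ≤ R := le_rr P hr
  have hQ : c * R ^ 2 ≤ P.q + P.s ^ 2 := by rw [show R ^ 2 = _ from rr_sq P r]; exact h.qlow
  set N := P.a (v, 0) * P.curl (0, l) (0, P.K.j *ᵥ l) + P.a (0, l) * P.curl (0, P.K.j *ᵥ l) (v, 0)
    + P.a (0, P.K.j *ᵥ l) * P.curl (v, 0) (0, l)
  set sw := Real.sqrt (offK P.K l w)
  set sv := Real.sqrt (offK P.K l v)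
  set E := 9 * (300 * D ^ 9) ^ 2
  have hsw : 0 ≤ sw := Real.sqrt_nonneg _
  have hsv : 0 ≤ sv := Real.sqrt_nonneg _
  have hE : 0 ≤ E := by positivity
  have hN : |N| ≤ 8 * (sw * sv) + B₂ * D ^ 2 * (R * sw + R ^ 2 * sv) + E * R ^ 3 := by
    have h1 := num_expansion h hc hv hl1
    have h2 := abs_lead_le hb w v l
    have h3 := hP2 P.K hb w v l hl hl1 hv
    have hw : ‖w‖ ≤ D * R := h.wle.trans (by gcongr; linarith)
    have h3' := h3.trans (show B₂ * (‖w‖ * sw + ‖w‖ ^ 2 * sv) ≤ B₂ * D ^ 2 * (R * sw + R ^ 2 * sv) by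
      calc B₂ * (‖w‖ * sw + ‖w‖ ^ 2 * sv) ≤ B₂ * (D * R * sw + (D * R) ^ 2 * sv) := by gcongr
        _ ≤ B₂ * (D ^ 2 * R * sw + (D * R) ^ 2 * sv) := by
            gcongr; exact le_self_pow₀ (by linarith) (by norm_num)
        _ = _ := by ring)
    have h4 : E * r ^ 3 ≤ E * R ^ 3 := by gcongr
    obtain ⟨a1, a2⟩ := abs_le.1 h1
    obtain ⟨b1, b2⟩ := abs_le.1 h2
    obtain ⟨c1, c2⟩ := abs_le.1 h3'
    exact abs_le.2 ⟨by linarith, by linarith⟩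
  have hQ0 : 0 < 4 * (c * R ^ 2) ^ 2 := by positivity
  have e : |P.dudd (v, 0) (0, l) (0, P.K.j *ᵥ l)| ≤ |N| / (4 * (c * R ^ 2) ^ 2) := by
    rw [PairData.dudd, neg_div, abs_neg, abs_div,
      abs_of_nonneg (by positivity : 0 ≤ 4 * (P.q + P.s ^ 2) ^ 2)]
    exact div_le_div_of_nonneg_left (abs_nonneg _) hQ0 (by gcongr)
  refine e.trans ((div_le_div_of_nonneg_right hN hQ0.le).trans ?_)
  have k0 : 0 ≤ B₂ * D ^ 2 := by positivity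
  calc (8 * (sw * sv) + B₂ * D ^ 2 * (R * sw + R ^ 2 * sv) + E * R ^ 3) / (4 * (c * R ^ 2) ^ 2)
      = 8 / (4 * c ^ 2) * (sw * sv / R ^ 4) + B₂ * D ^ 2 / (4 * c ^ 2) * (sw / R ^ 3 + sv / R ^ 2)
          + E / (4 * c ^ 2) * (1 / R) := by field_simp
    _ ≤ (8 + B₂ * D ^ 2 + E) / (4 * c ^ 2) * (sw * sv / R ^ 4)
          + (8 + B₂ * D ^ 2 + E) / (4 * c ^ 2) * (sw / R ^ 3 + sv / R ^ 2)
          + (8 + B₂ * D ^ 2 + E) / (4 * c ^ 2) * (1 / R) := by gcongr <;> linarith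
    _ = _ := by ring

end Vale.Agent.P204.Core
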