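import Mathlib
import Vale.Agent.P204.Core.TestKey

/-!
# P204 core: proof of `TestCoreStmt`
-/

open Matrix

namespace Vale.Agent.P204.Core

open Vale.Agent.P204.Torus

variable {P : PairData} {w : Pt} {r c C : ℝ}

theorem abs_dd (h : P.Expansion w r c C) (hc : 0 < c) (hp : P.s ≠ 0 ∨ 0 < r) (U V : Pt × Pt) :
    |P.dd U V| ≤ (150 * (1 + C) ^ 7 / c + 75 * (1 + C) ^ 11 / c ^ 2) * ‖U‖ * ‖V‖ / rr P r ^ 2 := by
  have hb := Expansion.jetBd h hc
  have hC := hb.Cnonneg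
  have hr := h.rnonneg
  set D := 1 + C with hD
  have hj : C + 2 * C ^ 3 ≤ 3 * D ^ 3 := by rw [hD]; nlinarith [pow_nonneg hC 3, sq_nonneg C]
  have hA : ∀ X Y : Pt × Pt, |P.a X * P.a (P.jt Y)| ≤ 75 * D ^ 11 * r ^ 2 * (‖X‖ * ‖Y‖) := fun X Y => by
    rw [abs_mul]
    refine (mul_le_mul (abs_a h hc X) ((abs_a h hc (P.jt Y)).trans (mul_le_mul_of_nonneg_left
      ((abs_jt h hC Y).trans (mul_le_mul_of_nonneg_right hj (norm_nonneg _))) (by positivity)))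
      (abs_nonneg _) (by positivity)).trans_eq ?_
    ring
  have n1 : |-P.curl U V / 2| ≤ 150 * D ^ 7 * (‖U‖ * ‖V‖) := by
    rw [abs_div, abs_neg, abs_two, div_le_iff₀ two_pos]
    linarith [abs_curl h hc U V]
  have n2 : |(P.a U * P.a (P.jt V) - P.a V * P.a (P.jt U)) / 2| ≤ 75 * D ^ 11 * r ^ 2 * (‖U‖ * ‖V‖) := by
    rw [abs_div, abs_two, div_le_iff₀ two_pos]
    refine (abs_sub _ _).trans ((add_le_add (hA U V) (hA V U)).trans_eq ?_)
    ring
  have e : P.dd U V = -P.curl U V / 2 / (P.q + P.s ^ 2)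
      + (P.a U * P.a (P.jt V) - P.a V * P.a (P.jt U)) / 2 / (P.q + P.s ^ 2) / (P.q + P.s ^ 2) := by
    simp only [PairData.dd, div_eq_mul_inv, mul_inv, pow_two]; ring
  rw [e]
  refine (abs_add_le _ _).trans ((add_le_add (div_le_rr h hc hp n1)
    (div_le_rr h hc hp (div_le_rr h hc hp n2))).trans ?_)
  have hR := rr_pos (P := P) (r := r) hp
  set R := rr P r
  have hrR : r ^ 2 ≤ R ^ 2 := pow_le_pow_left₀ hr (le_rr P hr) 2
  calc 150 * D ^ 7 * (‖U‖ * ‖V‖) / c / R ^ 2 + 75 * D ^ 11 * r ^ 2 * (‖U‖ * ‖V‖) / c / R ^ 2 / c / R ^ 2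
      ≤ 150 * D ^ 7 * (‖U‖ * ‖V‖) / c / R ^ 2 + 75 * D ^ 11 * R ^ 2 * (‖U‖ * ‖V‖) / c / R ^ 2 / c / R ^ 2 := by gcongr
    _ = _ := by field_simp

theorem abs_dudd (h : P.Expansion w r c C) (hc : 0 < c) (hp : P.s ≠ 0 ∨ 0 < r) (U V W : Pt × Pt) :
    |P.dudd U V W| ≤ 1125 * (1 + C) ^ 11 / c ^ 2 * ‖U‖ * ‖V‖ * ‖W‖ / rr P r ^ 3 := by
  have hb := Expansion.jetBd h hc
  have hC := hb.Cnonneg
  have hr := h.rnonneg
  set D := 1 + C
  have hA : ∀ X Y Z : Pt × Pt, |P.a X * P.curl Y Z| ≤ 1500 * D ^ 11 * r * (‖X‖ * ‖Y‖ * ‖Z‖) := fun X Y Z => by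
    rw [abs_mul]
    refine (mul_le_mul (abs_a h hc X) (abs_curl h hc Y Z) (abs_nonneg _) (by positivity)).trans_eq ?_
    ring
  have n : |-(P.a U * P.curl V W + P.a V * P.curl W U + P.a W * P.curl U V) / 4|
      ≤ 1125 * D ^ 11 * r * (‖U‖ * ‖V‖ * ‖W‖) := by
    rw [abs_div, abs_neg, abs_of_pos (by norm_num : (0:ℝ) < 4), div_le_iff₀ (by norm_num : (0:ℝ) < 4)]
    refine (abs_add_three _ _ _).trans ((add_le_add (add_le_add (hA U V W) (hA V W U)) (hA W U V)).trans_eq ?_)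
    ring
  have e : P.dudd U V W = -(P.a U * P.curl V W + P.a V * P.curl W U + P.a W * P.curl U V) / 4
      / (P.q + P.s ^ 2) / (P.q + P.s ^ 2) := by
    simp only [PairData.dudd, div_eq_mul_inv, mul_inv, pow_two]; ring
  rw [e]
  refine (div_le_rr h hc hp (div_le_rr h hc hp n)).trans ?_
  have hR := rr_pos (P := P) (r := r) hp
  set R := rr P r
  have hrR : r ≤ R := le_rr P hr
  calc 1125 * D ^ 11 * r * (‖U‖ * ‖V‖ * ‖W‖) / c / R ^ 2 / c / R ^ 2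
      ≤ 1125 * D ^ 11 * R * (‖U‖ * ‖V‖ * ‖W‖) / c / R ^ 2 / c / R ^ 2 := by gcongr
    _ = _ := by field_simp

/-- The pointwise estimates on the test potential. -/
theorem testCore : TestCoreStmt := by
  intro c C hc
  obtain ⟨K₆, hK⟩ := dudd_key (C := C) hc
  set D := 1 + |C| with hD
  set B₁ := 5 * D ^ 4
  set B₂ := 150 * D ^ 7 / c + 75 * D ^ 11 / c ^ 2
  set B₃ := 1125 * D ^ 11 / c ^ 2
  set B₄ := 140 * D ^ 8 / c
  set B₅ := 500 * D ^ 12 * (1 / c + 1 / c ^ 2)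
  refine ⟨B₁ + B₂ + B₃ + B₄ + B₅ + |K₆|, fun P w r hp h => ?_⟩
  have hb := Expansion.jetBd h hc
  have hC := hb.Cnonneg
  have hDC : 1 + C = D := by rw [hD, abs_of_nonneg hC]
  have h1 : 0 ≤ B₁ := by positivity
  have h2 : 0 ≤ B₂ := by positivity
  have h3 : 0 ≤ B₃ := by positivity
  have h4 : 0 ≤ B₄ := by positivity
  have h5 : 0 ≤ B₅ := by positivity
  have h6 := abs_nonneg K₆
  have hr := h.rnonneg
  have hR := rr_pos (P := P) (r := r) hp
  refine ⟨fun V => ?_, fun U V => ?_, fun U V W => ?_, fun u v => ?_, fun l hl => ?_,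
    fun l v hl hl1 hv => ?_⟩
  · refine (abs_a h hc V).trans ?_
    rw [hDC]; gcongr; linarith
  · refine (abs_dd h hc hp U V).trans ?_
    rw [hDC]; unfold rr; gcongr ?_ * _ * _ / _; linarith
  · refine (abs_dudd h hc hp U V W).trans ?_
    rw [hDC]; unfold rr; gcongr; linarith
  · refine (dd_anti h hc hp u v).trans ?_
    rw [hDC]; unfold rr; gcongr; linarith
  · refine (dd_line h hc hp hl).trans ?_
    rw [hDC]; unfold rr; gcongr; linarith
  · refine (hK P w r hp h l v hl hl1 hv).trans (mul_le_mul_of_nonneg_right ?_ (by positivity))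
    linarith [le_abs_self K₆]

end Vale.Agent.P204.Core
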